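import Mathlib

set_option autoImplicit false

namespace Crest.Agent.R327

open Finset

/-- `m^k ≤ 2 * m (m-1) ... (m-k+1)` as soon as `2 k^2 ≤ m`. -/
theorem pow_le_two_descFactorial (m k : ℕ) (h : 2 * k ^ 2 ≤ m) :
    (m : ℝ) ^ k ≤ 2 * (m.descFactorial k : ℕ) := by
  rcases Nat.eq_zero_or_pos k with rfl | hk
  · simp
  have hm : 0 < m := lt_of_lt_of_le (by positivity) h
  have hkm : k ≤ m := by nlinarith
  have hmR : (0 : ℝ) < m := by exact_mod_cast hm
  have hkmR : (k : ℝ) ≤ m := by exact_mod_cast hkm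
  have hR : 2 * (k : ℝ) ^ 2 ≤ m := by exact_mod_cast h
  have h1 : ((m : ℝ) - k) ^ k ≤ (m.descFactorial k : ℕ) := by
    have h2 : (m + 1 - k) ^ k ≤ m.descFactorial k := Nat.pow_sub_le_descFactorial m k
    have h3 : (((m + 1 - k : ℕ) : ℝ)) ^ k ≤ (m.descFactorial k : ℕ) := by exact_mod_cast h2
    refine le_trans (pow_le_pow_left₀ (by linarith) ?_ k) h3
    rw [Nat.cast_sub (by omega)]; push_cast; linarith
  have h4 : (1 : ℝ) + (k : ℝ) * (-((k : ℝ) / m)) ≤ (1 + (-((k : ℝ) / m))) ^ k := by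
    apply one_add_mul_le_pow
    have : (k : ℝ) / m ≤ 1 := by rw [div_le_one hmR]; exact hkmR
    linarith
  have h5 : (1 : ℝ) / 2 ≤ (1 + (-((k : ℝ) / m))) ^ k := by
    refine le_trans ?_ h4
    have : (k : ℝ) * ((k : ℝ) / m) ≤ 1 / 2 := by
      rw [← mul_div_assoc, div_le_iff₀ hmR]; nlinarith
    linarith
  have h6 : ((m : ℝ) - k) ^ k = m ^ k * (1 + (-((k : ℝ) / m))) ^ k := by
    rw [← mul_pow]; congr 1; field_simp; ring
  rw [h6] at h1
  have h7 : (m : ℝ) ^ k * (1 / 2) ≤ m ^ k * (1 + (-((k : ℝ) / m))) ^ k :=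
    mul_le_mul_of_nonneg_left h5 (by positivity)
  linarith

theorem descFactorial_le_pow_real (m k : ℕ) : ((m.descFactorial k : ℕ) : ℝ) ≤ (m : ℝ) ^ k := by
  exact_mod_cast Nat.descFactorial_le_pow m k

/-- the exact ratio of binomials through falling factorials -/
theorem choose_mul_desc (a p i j : ℕ) (hp : p ≤ a) (hj : j ≤ p) (hi : i ≤ a - p) :
    (a - i - j).choose (p - j) * a.descFactorial (i + j) =
      a.choose p * p.descFactorial j * (a - p).descFactorial i := by
  have e1 : a.choose p * p.factorial * (a - p).factorial = a.factorial :=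
    Nat.choose_mul_factorial_mul_factorial hp
  have e2 : (a - i - j).choose (p - j) * (p - j).factorial * (a - p - i).factorial =
      (a - i - j).factorial := by
    have := Nat.choose_mul_factorial_mul_factorial (n := a - i - j) (k := p - j) (by omega)
    rwa [show a - i - j - (p - j) = a - p - i by omega] at this
  have e3 : (p - j).factorial * p.descFactorial j = p.factorial :=
    Nat.factorial_mul_descFactorial hj
  have e4 : (a - p - i).factorial * (a - p).descFactorial i = (a - p).factorial :=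
    Nat.factorial_mul_descFactorial hi
  have e5 : (a - i - j).factorial * a.descFactorial (i + j) = a.factorial := by
    have := Nat.factorial_mul_descFactorial (n := a) (k := i + j) (by omega)
    rwa [show a - (i + j) = a - i - j by omega] at this
  have hpos : 0 < (p - j).factorial * (a - p - i).factorial :=
    Nat.mul_pos (Nat.factorial_pos _) (Nat.factorial_pos _)
  apply Nat.eq_of_mul_eq_mul_right hpos
  calc (a - i - j).choose (p - j) * a.descFactorial (i + j) *
        ((p - j).factorial * (a - p - i).factorial)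
      = ((a - i - j).choose (p - j) * (p - j).factorial * (a - p - i).factorial) *
          a.descFactorial (i + j) := by ring
    _ = a.factorial := by rw [e2, e5]
    _ = a.choose p * p.factorial * (a - p).factorial := e1.symm
    _ = a.choose p * p.descFactorial j * (a - p).descFactorial i *
        ((p - j).factorial * (a - p - i).factorial) := by rw [← e3, ← e4]; ring

/-- T8a -/
theorem choose_le_two (a p i j : ℕ) (hp : p ≤ a) (hj : j ≤ p) (hij : 2 * (i + j) ^ 2 ≤ a)
    (ha : 0 < a) (hi : i ≤ a - p) :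
    (((a - i - j).choose (p - j) : ℕ) : ℝ) ≤
      2 * (a.choose p : ℕ) * (((a : ℝ) - p) / a) ^ i * ((p : ℝ) / a) ^ j := by
  have haR : (0 : ℝ) < a := by exact_mod_cast ha
  have h1 : (((a - i - j).choose (p - j) : ℕ) : ℝ) * (a.descFactorial (i + j) : ℕ) =
      (a.choose p : ℕ) * (p.descFactorial j : ℕ) * ((a - p).descFactorial i : ℕ) := by
    exact_mod_cast choose_mul_desc a p i j hp hj hi
  have h2 := pow_le_two_descFactorial a (i + j) hij
  have h3 : ((p.descFactorial j : ℕ) : ℝ) ≤ (p : ℝ) ^ j := descFactorial_le_pow_real p j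
  have h4 : (((a - p).descFactorial i : ℕ) : ℝ) ≤ ((a : ℝ) - p) ^ i := by
    have := descFactorial_le_pow_real (a - p) i
    rwa [Nat.cast_sub hp] at this
  have hc0 : (0 : ℝ) ≤ (((a - i - j).choose (p - j) : ℕ) : ℝ) := by positivity
  have h5 : (((a - i - j).choose (p - j) : ℕ) : ℝ) * (a : ℝ) ^ (i + j) ≤
      2 * ((a.choose p : ℕ) * ((a : ℝ) - p) ^ i * (p : ℝ) ^ j) := by
    calc (((a - i - j).choose (p - j) : ℕ) : ℝ) * (a : ℝ) ^ (i + j)
        ≤ (((a - i - j).choose (p - j) : ℕ) : ℝ) * (2 * (a.descFactorial (i + j) : ℕ)) :=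
          mul_le_mul_of_nonneg_left h2 hc0
      _ = 2 * ((a.choose p : ℕ) * (p.descFactorial j : ℕ) * ((a - p).descFactorial i : ℕ)) := by
          rw [← h1]; ring
      _ ≤ 2 * ((a.choose p : ℕ) * (p : ℝ) ^ j * ((a : ℝ) - p) ^ i) := by
          gcongr
      _ = _ := by ring
  have h6 : 2 * ((a.choose p : ℕ) : ℝ) * (((a : ℝ) - p) / a) ^ i * ((p : ℝ) / a) ^ j =
      2 * ((a.choose p : ℕ) * ((a : ℝ) - p) ^ i * (p : ℝ) ^ j) / (a : ℝ) ^ (i + j) := by
    rw [div_pow, div_pow, pow_add]; field_simp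
  rw [h6, le_div_iff₀ (by positivity)]
  exact h5

/-- T8b -/
theorem choose_ge_half (a p i : ℕ) (hp : p < a) (hi : 2 * i ^ 2 ≤ a - p) :
    (1 / 2 : ℝ) * (a.choose p : ℕ) * (((a : ℝ) - p) / a) ^ i ≤ (((a - i).choose p : ℕ) : ℝ) := by
  have haR : (0 : ℝ) < a := by exact_mod_cast (by omega : 0 < a)
  have hi' : i ≤ a - p := by nlinarith
  have h1 : (((a - i).choose p : ℕ) : ℝ) * (a.descFactorial i : ℕ) =
      (a.choose p : ℕ) * ((a - p).descFactorial i : ℕ) := by
    have := choose_mul_desc a p i 0 hp.le (Nat.zero_le _) hi'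
    simp only [Nat.sub_zero, Nat.add_zero, Nat.descFactorial_zero, Nat.mul_one] at this
    exact_mod_cast this
  have h2 : ((a : ℝ) - p) ^ i ≤ 2 * ((a - p).descFactorial i : ℕ) := by
    have := pow_le_two_descFactorial (a - p) i hi
    rwa [Nat.cast_sub hp.le] at this
  have h3 : ((a.descFactorial i : ℕ) : ℝ) ≤ (a : ℝ) ^ i := descFactorial_le_pow_real a i
  have h6 : (1 / 2 : ℝ) * (a.choose p : ℕ) * (((a : ℝ) - p) / a) ^ i =
      (1 / 2 : ℝ) * ((a.choose p : ℕ) * ((a : ℝ) - p) ^ i) / (a : ℝ) ^ i := by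
    rw [div_pow]; ring
  rw [h6, div_le_iff₀ (by positivity)]
  calc (1 / 2 : ℝ) * ((a.choose p : ℕ) * ((a : ℝ) - p) ^ i)
      ≤ (1 / 2 : ℝ) * ((a.choose p : ℕ) * (2 * ((a - p).descFactorial i : ℕ))) := by gcongr
    _ = (((a - i).choose p : ℕ) : ℝ) * (a.descFactorial i : ℕ) := by rw [h1]; ring
    _ ≤ (((a - i).choose p : ℕ) : ℝ) * (a : ℝ) ^ i := by gcongr

end Crest.Agent.R327
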