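import Mathlib

/-!
Transfer-operator bound for sums over vertex sequences, and its application to pairs of types
`N`/`D` used in the walk count for iterated matrix multiplication.
-/

set_option autoImplicit false

namespace Crest.Agent.R327.Walk

/-- vertex tuple with endpoints `x`, `y` and interior `w` -/
def VV {V : Type*} {m : ℕ} (x y : V) (w : Fin m → V) : Fin (m + 2) → V :=
  Fin.cons x (Fin.snoc (α := fun _ => V) w y)

theorem VV_zero {V : Type*} {m : ℕ} (x y : V) (w : Fin m → V) : VV x y w 0 = x := rfl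

theorem VV_cons {V : Type*} {m : ℕ} (x y l : V) (w : Fin m → V) :
    VV x y (Fin.cons l w : Fin (m + 1) → V) = Fin.cons x (VV l y w) := by
  unfold VV
  have h := Fin.cons_snoc_eq_snoc_cons l w y
  rw [← h]

theorem sum_cons' {V M : Type*} [Fintype V] [AddCommMonoid M] {m : ℕ} (F : (Fin (m + 1) → V) → M) :
    ∑ v : Fin (m + 1) → V, F v = ∑ x : V, ∑ v : Fin m → V, F (Fin.cons x v) := by
  rw [← (Fin.consEquiv (fun _ : Fin (m + 1) => V)).sum_comp, Fintype.sum_prod_type]
  rfl

/-- Transfer bound: if `h` is a supersolution for the kernels `g`, the total weight of all vertex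
sequences from `x` to `ve` is at most `h 0 x`. -/
theorem chain_le {V : Type*} [Fintype V] (m : ℕ) (g : ℕ → V → V → ℝ) (h : ℕ → V → ℝ) (x ve : V)
    (hg : ∀ l v v', 0 ≤ g l v v')
    (hstep : ∀ l, l < m → ∀ v, ∑ v', g l v v' * h (l + 1) v' ≤ h l v)
    (hlast : ∀ v, g m v ve ≤ h m v) :
    ∑ w : Fin m → V, ∏ a : Fin (m + 1), g a (VV x ve w a.castSucc) (VV x ve w a.succ) ≤ h 0 x := by
  induction m generalizing g h x with
  | zero =>
    have : ∀ w : Fin 0 → V, ∏ a : Fin (0 + 1), g a (VV x ve w a.castSucc) (VV x ve w a.succ)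
        = g 0 x ve := by
      intro w
      simp [VV]
      rfl
    simp only [this]
    simpa using hlast x
  | succ m ih =>
    rw [sum_cons']
    have h1 : ∀ (v' : V) (w : Fin m → V),
        ∏ a : Fin (m + 1 + 1), g a (VV x ve (Fin.cons v' w : Fin (m + 1) → V) a.castSucc)
            (VV x ve (Fin.cons v' w : Fin (m + 1) → V) a.succ)
          = g 0 x v' * ∏ a : Fin (m + 1), (fun l => g (l + 1)) a (VV v' ve w a.castSucc)
              (VV v' ve w a.succ) := by
      intro v' w
      rw [Fin.prod_univ_succ (n := m + 1), VV_cons]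
      congr 1
    simp only [h1, ← Finset.mul_sum]
    have h2 : ∀ v', ∑ w : Fin m → V, ∏ a : Fin (m + 1), (fun l => g (l + 1)) a
        (VV v' ve w a.castSucc) (VV v' ve w a.succ) ≤ h 1 v' := by
      intro v'
      have := ih (fun l => g (l + 1)) (fun l => h (l + 1)) v' (fun l v v'' => hg _ _ _)
        (fun l hl v => hstep (l + 1) (by omega) v) (fun v => hlast v)
      simpa using this
    calc ∑ v', g 0 x v' * ∑ w : Fin m → V, ∏ a : Fin (m + 1), (fun l => g (l + 1)) a
          (VV v' ve w a.castSucc) (VV v' ve w a.succ)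
        ≤ ∑ v', g 0 x v' * h 1 v' :=
          Finset.sum_le_sum fun v' _ => mul_le_mul_of_nonneg_left (h2 v') (hg _ _ _)
      _ ≤ h 0 x := by simpa using hstep 0 (by omega) x

section Types

variable {α : Type*} [Fintype α] [DecidableEq α]

/-- local weight of a quadruple of edges `(v i, v' i)`: pattern `N` (`e₁ = e₂`, `e₃ = e₄`) has weight
`c` if all four edges agree and `1` otherwise; pattern `D` (`e₁ = e₄ ≠ e₂ = e₃`) has weight `w`. -/
def gN (c w : ℝ) (v v' : α × α × α × α) : ℝ :=
  if v.1 = v.2.1 ∧ v.2.2.1 = v.2.2.2 ∧ v'.1 = v'.2.1 ∧ v'.2.2.1 = v'.2.2.2 then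
    (if v.1 = v.2.2.1 ∧ v'.1 = v'.2.2.1 then c else 1)
  else if v.1 = v.2.2.2 ∧ v.2.1 = v.2.2.1 ∧ v'.1 = v'.2.2.2 ∧ v'.2.1 = v'.2.2.1 then w
  else 0

omit [Fintype α] in
theorem gN_nonneg {c w : ℝ} (hc : 0 ≤ c) (hw : 0 ≤ w) (v v' : α × α × α × α) :
    0 ≤ gN c w v v' := by
  unfold gN
  split_ifs <;> first | assumption | norm_num

/-- the supersolution: `H * R` on the diagonal, `R` on pattern `N`, `Kd * R` on pattern `D`. -/
def hN (H Kd R : ℝ) (v : α × α × α × α) : ℝ :=
  if v.1 = v.2.1 ∧ v.2.2.1 = v.2.2.2 then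
    (if v.1 = v.2.2.1 then H * R else R)
  else if v.1 = v.2.2.2 ∧ v.2.1 = v.2.2.1 then Kd * R
  else 0

omit [Fintype α] in
theorem hN_nonneg {H Kd R : ℝ} (hH : 0 ≤ H) (hK : 0 ≤ Kd) (hR : 0 ≤ R) (v : α × α × α × α) :
    0 ≤ hN H Kd R v := by
  unfold hN
  split_ifs <;> positivity

/-- Sum over pairs, split in diagonal and off-diagonal part. -/
theorem sum_pair_ite (x y : ℝ) :
    ∑ A : α, ∑ B : α, (if A = B then x else y)
      = (Fintype.card α : ℝ) * x + ((Fintype.card α : ℝ) ^ 2 - Fintype.card α) * y := by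
  have : ∀ A : α, ∑ B : α, (if A = B then x else y) = x + ((Fintype.card α : ℝ) - 1) * y := by
    intro A
    have h1 : ∀ B : α, (if A = B then x else y) = y + (if A = B then (x - y) else 0) := by
      intro B; split_ifs <;> ring
    simp only [h1, Finset.sum_add_distrib]
    simp
    ring
  simp only [this]
  simp
  ring

omit [DecidableEq α] in
theorem sum_quad {M : Type*} [AddCommMonoid M] (f : α × α × α × α → M) :
    ∑ v : α × α × α × α, f v = ∑ a : α, ∑ b : α, ∑ c : α, ∑ d : α, f (a, b, c, d) := by
  simp only [Fintype.sum_prod_type]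

/-- A function on quadruples dominated by an `N`-part and a `D`-part. -/
theorem sum_quad_le (f : α × α × α × α → ℝ) (fN fD : α → α → ℝ)
    (hf : ∀ a b c d, f (a, b, c, d) ≤ (if a = b ∧ c = d then fN a c else 0)
      + (if a = d ∧ b = c then fD a b else 0)) :
    ∑ v : α × α × α × α, f v ≤ ∑ A, ∑ B, fN A B + ∑ A, ∑ B, fD A B := by
  rw [sum_quad]
  calc ∑ a : α, ∑ b : α, ∑ c : α, ∑ d : α, f (a, b, c, d)
      ≤ ∑ a : α, ∑ b : α, ∑ c : α, ∑ d : α, ((if a = b ∧ c = d then fN a c else 0)
          + (if a = d ∧ b = c then fD a b else 0)) := by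
        gcongr with a _ b _ c _ d _
        exact hf a b c d
    _ = ∑ A, ∑ B, fN A B + ∑ A, ∑ B, fD A B := by
        simp only [Finset.sum_add_distrib]
        congr 1
        · refine Finset.sum_congr rfl fun a _ => ?_
          rw [Finset.sum_comm]
          refine Finset.sum_congr rfl fun c _ => ?_
          rw [Finset.sum_eq_single a]
          · rw [Finset.sum_eq_single c]
            · simp
            · intro d _ hd; rw [if_neg]; rintro ⟨_, h⟩; exact hd h.symm
            · simp
          · intro b _ hb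
            refine Finset.sum_eq_zero fun d _ => ?_
            rw [if_neg]; rintro ⟨h, _⟩; exact hb h.symm
          · simp
        · refine Finset.sum_congr rfl fun a _ => ?_
          refine Finset.sum_congr rfl fun b _ => ?_
          rw [Finset.sum_eq_single b]
          · rw [Finset.sum_eq_single a]
            · simp
            · intro d _ hd; rw [if_neg]; rintro ⟨h, _⟩; exact hd h.symm
            · simp
          · intro c _ hc
            refine Finset.sum_eq_zero fun d _ => ?_
            rw [if_neg]; rintro ⟨_, h⟩; exact hc h.symm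
          · simp

/-- One step of the supersolution property. `N` is the number of vertices per level. -/
theorem step_le {c w H K₀ K₁ R : ℝ} (_hc0 : 0 ≤ c) (hcH : c ≤ H) (hw : 0 ≤ w) (hH : 1 ≤ H)
    (hK1 : 1 ≤ K₁) (hR : 0 ≤ R) (hwK : w * K₁ ≤ K₀) (hwH : 1 + w * K₁ ≤ H)
    (v : α × α × α × α) :
    ∑ v', gN c w v v' * hN H K₁ R v'
      ≤ hN H K₀ (((Fintype.card α : ℝ) ^ 2 - Fintype.card α + Fintype.card α * H) * R) v := by
  set N : ℝ := (Fintype.card α : ℝ) with hN
  have hNN : 0 ≤ N ^ 2 - N := by
    rcases Nat.eq_zero_or_pos (Fintype.card α) with h0 | h0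
    · simp [hN, h0]
    · have : (1 : ℝ) ≤ N := by rw [hN]; exact_mod_cast h0
      nlinarith
  have hN0 : 0 ≤ N := by rw [hN]; positivity
  have hwK' : w ≤ K₀ := le_trans (by nlinarith) hwK
  obtain ⟨a, b, c', d⟩ := v
  by_cases hE : a = b ∧ c' = d
  · obtain ⟨rfl, rfl⟩ := hE
    by_cases hac : a = c'
    · subst hac
      -- diagonal state
      have hb := sum_quad_le (fun v' => gN c w (a, a, a, a) v' * Crest.Agent.R327.Walk.hN H K₁ R v')
        (fun A B => if A = B then c * (H * R) else R) (fun A B => if A = B then 0 else w * (K₁ * R))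
        (by
          intro a' b' c'' d'
          simp only [gN, Crest.Agent.R327.Walk.hN, true_and]
          by_cases h1 : a' = b' ∧ c'' = d'
          · obtain ⟨rfl, rfl⟩ := h1
            by_cases h2 : a' = c''
            · subst h2; simp
            · have h2' : ¬ (a' = c'' ∧ a' = c'') := fun h => h2 h.1
              simp [h2]
          · by_cases h2 : a' = d' ∧ b' = c''
            · obtain ⟨rfl, rfl⟩ := h2
              have h3 : a' ≠ b' := by
                rintro rfl
                exact h1 ⟨rfl, rfl⟩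
              have h4 : ¬ (a' = b' ∧ b' = a') := fun h => h3 h.1
              simp [h3]
            · simp [h1, h2])
      refine hb.trans ?_
      have e1 := sum_pair_ite (α := α) (c * (H * R)) R
      have e2 := sum_pair_ite (α := α) (0 : ℝ) (w * (K₁ * R))
      rw [e1, e2]
      simp only [Crest.Agent.R327.Walk.hN, and_self, if_true]
      rw [← hN]
      have i1 : N * (c * (H * R)) ≤ N * (H * (H * R)) := by
        have : 0 ≤ H * R := by positivity
        exact mul_le_mul_of_nonneg_left (mul_le_mul_of_nonneg_right hcH this) hN0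
      have i2 : (N ^ 2 - N) * R + (N ^ 2 - N) * (w * (K₁ * R)) ≤ (N ^ 2 - N) * (H * R) := by
        have : R + w * (K₁ * R) ≤ H * R := by nlinarith
        nlinarith
      nlinarith
    · -- state N
      have hb := sum_quad_le (fun v' => gN c w (a, a, c', c') v' * Crest.Agent.R327.Walk.hN H K₁ R v')
        (fun A B => if A = B then H * R else R) (fun _ _ => 0)
        (by
          intro a' b' c'' d'
          simp only [gN, Crest.Agent.R327.Walk.hN, true_and]
          by_cases h1 : a' = b' ∧ c'' = d'
          · obtain ⟨rfl, rfl⟩ := h1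
            simp [hac]
          · simp [h1, hac])
      refine hb.trans ?_
      have e1 := sum_pair_ite (α := α) (H * R) R
      rw [e1]
      simp only [Crest.Agent.R327.Walk.hN, and_self, if_true, hac, if_false]
      rw [← hN]
      simp
      nlinarith
  · by_cases hD : a = d ∧ b = c'
    · obtain ⟨rfl, rfl⟩ := hD
      have hab : a ≠ b := by
        rintro rfl
        exact hE ⟨rfl, rfl⟩
      have hab' : b ≠ a := fun h => hab h.symm
      have hb := sum_quad_le (fun v' => gN c w (a, b, b, a) v' * Crest.Agent.R327.Walk.hN H K₁ R v')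
        (fun _ _ => 0) (fun A B => if A = B then w * (H * R) else w * (K₁ * R))
        (by
          intro a' b' c'' d'
          simp only [gN, Crest.Agent.R327.Walk.hN, true_and]
          by_cases h2 : a' = d' ∧ b' = c''
          · obtain ⟨rfl, rfl⟩ := h2
            by_cases h3 : a' = b'
            · subst h3; simp [hab, hab']
            · have h4 : ¬ (a' = b' ∧ b' = a') := fun h => h3 h.1
              simp [hab, h3]
          · simp [h2, hab])
      refine hb.trans ?_
      have e1 := sum_pair_ite (α := α) (w * (H * R)) (w * (K₁ * R))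
      rw [e1]
      simp only [Crest.Agent.R327.Walk.hN]
      rw [← hN]
      have hne : ¬ (a = b ∧ b = a) := fun h => hab h.1
      simp only [hne, if_false, true_and, if_true, Finset.sum_const_zero, zero_add, and_self]
      have i1 : N * (w * (H * R)) ≤ N * (K₀ * (H * R)) := by
        have : 0 ≤ H * R := by positivity
        exact mul_le_mul_of_nonneg_left (mul_le_mul_of_nonneg_right hwK' this) hN0
      have i2 : (N ^ 2 - N) * (w * (K₁ * R)) ≤ (N ^ 2 - N) * (K₀ * R) := by
        have : w * (K₁ * R) ≤ K₀ * R := by nlinarith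
        exact mul_le_mul_of_nonneg_left this hNN
      nlinarith
    · have hz : ∀ v', gN c w (a, b, c', d) v' = 0 := by
        intro v'
        simp only [gN]
        rw [if_neg (fun h => hE ⟨h.1, h.2.1⟩), if_neg (fun h => hD ⟨h.1, h.2.1⟩)]
      simp only [hz, zero_mul, Finset.sum_const_zero]
      simp only [Crest.Agent.R327.Walk.hN]
      rw [if_neg hE, if_neg hD]

end Types

/-- **Walk-count core.**  Total weight of all quadruples of vertex sequences (all four starting at
`z` and ending at `z`), for local weights `c l`, `w l`. -/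
theorem quad_chain_le {α : Type*} [Fintype α] [DecidableEq α] (m : ℕ) (c w Kd : ℕ → ℝ) (H : ℝ)
    (z : α)
    (hc0 : ∀ l, 0 ≤ c l) (hcH : ∀ l, l ≤ m → c l ≤ H) (hw : ∀ l, 0 ≤ w l) (hH : 1 ≤ H)
    (hK : ∀ l, 1 ≤ Kd l) (hwK : ∀ l, l ≤ m → w l * Kd (l + 1) ≤ Kd l)
    (hwH : ∀ l, l ≤ m → 1 + w l * Kd (l + 1) ≤ H) :
    ∑ q : Fin m → α × α × α × α,
        ∏ a : Fin (m + 1), gN (c a) (w a)
          (VV (z, z, z, z) (z, z, z, z) q a.castSucc) (VV (z, z, z, z) (z, z, z, z) q a.succ)
      ≤ H * ((Fintype.card α : ℝ) ^ 2 - Fintype.card α + Fintype.card α * H) ^ m := by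
  set X : ℝ := (Fintype.card α : ℝ) ^ 2 - Fintype.card α + Fintype.card α * H with hX
  have hX0 : 0 ≤ X := by
    have hNN : 0 ≤ (Fintype.card α : ℝ) ^ 2 - Fintype.card α := by
      rcases Nat.eq_zero_or_pos (Fintype.card α) with h0 | h0
      · simp [h0]
      · have : (1 : ℝ) ≤ (Fintype.card α : ℝ) := by exact_mod_cast h0
        nlinarith
    have : 0 ≤ (Fintype.card α : ℝ) * H := by positivity
    linarith
  have key := chain_le (V := α × α × α × α) m (fun l => gN (c l) (w l))
    (fun l => hN H (Kd l) (X ^ (m - l))) (z, z, z, z) (z, z, z, z)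
    (fun l v v' => gN_nonneg (hc0 l) (hw l) v v')
    (by
      intro l hl v
      have hs := step_le (c := c l) (w := w l) (H := H) (K₀ := Kd l) (K₁ := Kd (l + 1))
        (R := X ^ (m - (l + 1))) (hc0 l) (hcH l hl.le) (hw l) hH (hK (l + 1)) (by positivity)
        (hwK l hl.le) (hwH l hl.le) v
      rw [← hX, ← pow_succ'] at hs
      have : m - (l + 1) + 1 = m - l := by omega
      rw [this] at hs
      exact hs)
    (by
      intro v
      obtain ⟨a, b, c', d⟩ := v
      simp only [Nat.sub_self, pow_zero]
      have hcm := hcH m le_rfl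
      have hwm : w m ≤ Kd m := le_trans (by nlinarith [hw m, hK (m + 1)]) (hwK m le_rfl)
      simp only [gN, hN, and_true]
      split_ifs <;> linarith)
  have h0 : hN H (Kd 0) (X ^ (m - 0)) ((z, z, z, z) : α × α × α × α) = H * X ^ m := by
    simp [hN]
  rw [← h0]
  exact key

end Crest.Agent.R327.Walk
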