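import Mathlib
import Crest.Prelude.Def_SPSPS

set_option autoImplicit false

namespace Crest.Agent.R327

open MvPolynomial Finset Crest.ArithCircuit

namespace Circ

section aux

variable {K ι L B P S R : Type*} [Field K]

theorem isHomogeneous_leafVal (C : SPSPS K ι L B P S R) (l : L) :
    (C.leafVal l).IsHomogeneous (C.leafDeg l) := by
  unfold SPSPS.leafVal SPSPS.leafDeg
  rcases C.leaf l with i | c
  · simpa using isHomogeneous_X K i
  · simpa using isHomogeneous_C ι c

theorem smul_isHomogeneous {f : MvPolynomial ι K} {n : ℕ} (c : K) (hf : f.IsHomogeneous n) :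
    (c • f).IsHomogeneous n := by
  rw [← mem_homogeneousSubmodule] at hf ⊢
  exact Submodule.smul_mem _ c hf

theorem isHomogeneous_valB (C : SPSPS K ι L B P S R) (hC : C.IsHomogeneous) (b : B) :
    (C.valB b).IsHomogeneous (C.degB b) := by
  unfold SPSPS.valB
  refine IsHomogeneous.sum _ _ _ fun l hl => ?_
  have := hC.1 b l hl
  rw [← this]
  exact smul_isHomogeneous _ (isHomogeneous_leafVal C l)

theorem multiset_prod_isHomogeneous {α : Type*} (m : Multiset α) (f : α → MvPolynomial ι K)
    (d : α → ℕ) (h : ∀ a ∈ m, (f a).IsHomogeneous (d a)) :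
    ((m.map f).prod).IsHomogeneous ((m.map d).sum) := by
  induction m using Multiset.induction_on with
  | empty => simpa using isHomogeneous_one ι K
  | cons a m ih =>
    simp only [Multiset.map_cons, Multiset.prod_cons, Multiset.sum_cons]
    exact (h a (Multiset.mem_cons_self a m)).mul (ih fun x hx => h x (Multiset.mem_cons_of_mem hx))

theorem isHomogeneous_valP (C : SPSPS K ι L B P S R) (hC : C.IsHomogeneous) (p : P) :
    (C.valP p).IsHomogeneous (C.degP p) := by
  unfold SPSPS.valP SPSPS.degP
  exact multiset_prod_isHomogeneous _ _ _ fun a _ => isHomogeneous_valB C hC a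

theorem isHomogeneous_valS (C : SPSPS K ι L B P S R) (hC : C.IsHomogeneous) (s : S) :
    (C.valS s).IsHomogeneous (C.degS s) := by
  unfold SPSPS.valS
  refine IsHomogeneous.sum _ _ _ fun p hp => ?_
  have := hC.2.1 s p hp
  rw [← this]
  exact smul_isHomogeneous _ (isHomogeneous_valP C hC p)

theorem isHomogeneous_valR (C : SPSPS K ι L B P S R) (hC : C.IsHomogeneous) (r : R) :
    (C.valR r).IsHomogeneous (C.degR r) := by
  unfold SPSPS.valR SPSPS.degR
  exact multiset_prod_isHomogeneous _ _ _ fun a _ => isHomogeneous_valS C hC a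

theorem isHomogeneous_output (C : SPSPS K ι L B P S R) (hC : C.IsHomogeneous) :
    (C.output).IsHomogeneous (C.degOut) := by
  unfold SPSPS.output
  refine IsHomogeneous.sum _ _ _ fun r hr => ?_
  have := hC.2.2 r hr
  rw [← this]
  exact smul_isHomogeneous _ (isHomogeneous_valR C hC r)

omit [Field K] in
theorem leafDeg_le_one (C : SPSPS K ι L B P S R) (l : L) : C.leafDeg l ≤ 1 := by
  unfold SPSPS.leafDeg
  rcases C.leaf l with i | c <;> simp

theorem degB_le_one (C : SPSPS K ι L B P S R) (b : B) : C.degB b ≤ 1 := by
  unfold SPSPS.degB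
  exact Finset.sup_le fun l _ => leafDeg_le_one C l

/-- subadditivity over finite sums -/
theorem rho_sum_le {α : Type*} (ρ : MvPolynomial ι K → ℝ) (h0 : ρ 0 = 0)
    (hadd : ∀ f g, ρ (f + g) ≤ ρ f + ρ g)
    (hsmul : ∀ (c : K) (f : MvPolynomial ι K), ρ (c • f) ≤ ρ f)
    (s : Finset α) (c : α → K) (f : α → MvPolynomial ι K) (b : ℝ)
    (h : ∀ a ∈ s, ρ (f a) ≤ b) :
    ρ (∑ a ∈ s, c a • f a) ≤ (s.card : ℝ) * b := by
  classical
  induction s using Finset.induction_on with
  | empty => simp [h0]
  | insert a s ha ih =>
    rw [Finset.sum_insert ha, Finset.card_insert_of_notMem ha]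
    have h1 := hadd (c a • f a) (∑ x ∈ s, c x • f x)
    have h2 := ih fun x hx => h x (Finset.mem_insert_of_mem hx)
    have h3 := (hsmul (c a) (f a)).trans (h a (Finset.mem_insert_self a s))
    push_cast
    linarith

/-- splitting `t` linear factors off a product of polynomials of degree at most one. -/
theorem exists_split {α : Type*} (m : Multiset α) (f : α → MvPolynomial ι K)
    (d : α → ℕ) (hd : ∀ a, d a ≤ 1) (h : ∀ a, (f a).IsHomogeneous (d a)) (t : ℕ)
    (ht : t ≤ (m.map d).sum) :
    ∃ (ℓ : Fin t → MvPolynomial ι K) (R' : MvPolynomial ι K), (∀ i, (ℓ i).IsHomogeneous 1) ∧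
      R'.IsHomogeneous ((m.map d).sum - t) ∧ (m.map f).prod = (∏ i, ℓ i) * R' := by
  induction m using Multiset.induction_on generalizing t with
  | empty =>
    simp only [Multiset.map_zero, Multiset.sum_zero, Nat.le_zero] at ht
    subst ht
    refine ⟨fun i => i.elim0, 1, fun i => i.elim0, ?_, by simp⟩
    simpa using isHomogeneous_one ι K
  | cons a m ih =>
    simp only [Multiset.map_cons, Multiset.prod_cons, Multiset.sum_cons] at ht ⊢
    by_cases hle : t ≤ (m.map d).sum
    · obtain ⟨ℓ, R', hℓ, hR, hprod⟩ := ih t hle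
      refine ⟨ℓ, f a * R', hℓ, ?_, ?_⟩
      · have := (h a).mul hR
        rwa [← Nat.add_sub_assoc hle] at this
      · rw [hprod]; ring
    · push Not at hle
      have hda : d a = 1 := by
        have := hd a
        omega
      have ht' : t = (m.map d).sum + 1 := by omega
      obtain ⟨ℓ, R', hℓ, hR, hprod⟩ := ih ((m.map d).sum) le_rfl
      subst ht'
      refine ⟨Fin.cons (f a) ℓ, R', ?_, ?_, ?_⟩
      · intro i
        refine Fin.cases ?_ (fun j => ?_) i
        · have := h a
          rw [hda] at this
          simpa using this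
        · simpa using hℓ j
      · have e : d a + (m.map d).sum - ((m.map d).sum + 1) = (m.map d).sum - (m.map d).sum := by
          omega
        rw [e]; exact hR
      · rw [Fin.prod_univ_succ]
        simp only [Fin.cons_zero, Fin.cons_succ]
        rw [hprod]; ring

end aux

end Circ

open Circ

/-- T4: decomposition of a homogeneous depth-five circuit for a subadditive functional.
Proof: every gate value is homogeneous of its formal degree (`0` is homogeneous of every degree);
since the output is nonzero and homogeneous of degree `n`, `C.degOut = n`. Output = sum over `r ∈ inOut`.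
For each `r`: either all `degS s ≤ t` for `s ∈ inR r` (use `h1` with the multiset of pairs
`(valS s, degS s)`), or some `s ∈ inR r` has `t < degS s`; then `valS s = ∑ p ∈ inS s, coefS • valP p`
and each `valP p` is a product of bottom gates of formal degree `0` or `1`, more than `t` of
which have degree `1`: use `h2` for each of the at most `card P` values of `p`. -/
theorem circuit_subadditive {K ι L B P S R : Type*} [Field K] [Fintype L] [Fintype B]
    [Fintype P] [Fintype S] [Fintype R] [Fintype ι] [DecidableEq ι]
    (C : SPSPS K ι L B P S R) (hC : C.IsHomogeneous)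
    (n : ℕ) (hout : C.output.IsHomogeneous n) (hne : C.output ≠ 0)
    (t : ℕ) (htn : t ≤ n) (ρ : MvPolynomial ι K → ℝ) (h0 : ρ 0 = 0)
    (hadd : ∀ f g, ρ (f + g) ≤ ρ f + ρ g)
    (hsmul : ∀ (c : K) (f : MvPolynomial ι K), ρ (c • f) ≤ ρ f) (b : ℝ) (hb : 0 ≤ b)
    (h1 : ∀ s : Multiset (MvPolynomial ι K × ℕ), (∀ x ∈ s, x.1.IsHomogeneous x.2 ∧ x.2 ≤ t) →
      (s.map Prod.snd).sum = n → ρ (s.map Prod.fst).prod ≤ b)
    (h2 : ∀ (ℓ : Fin t → MvPolynomial ι K) (R' : MvPolynomial ι K), (∀ i, (ℓ i).IsHomogeneous 1) →
      R'.IsHomogeneous (n - t) → ρ ((∏ i, ℓ i) * R') ≤ b) :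
    ρ C.output ≤ (Fintype.card R : ℝ) * (1 + Fintype.card P) * b := by
  classical
  have hdeg : C.degOut = n := (isHomogeneous_output C hC).inj_right hout hne
  have hP0 : (0 : ℝ) ≤ Fintype.card P := Nat.cast_nonneg _
  -- bound for one top product gate
  have key : ∀ r ∈ C.inOut, ρ (C.valR r) ≤ (1 + (Fintype.card P : ℝ)) * b := by
    intro r hr
    have hrdeg : C.degR r = n := (hC.2.2 r hr).trans hdeg
    by_cases hsmall : ∀ s ∈ C.inR r, C.degS s ≤ t
    · have := h1 ((C.inR r).map fun s => (C.valS s, C.degS s)) (by
        intro x hx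
        obtain ⟨s, hs, rfl⟩ := Multiset.mem_map.1 hx
        exact ⟨isHomogeneous_valS C hC s, hsmall s hs⟩) (by
        rw [Multiset.map_map]
        exact hrdeg)
      rw [Multiset.map_map] at this
      have e : ρ (C.valR r) ≤ b := this
      nlinarith
    · push Not at hsmall
      obtain ⟨s, hs, hst⟩ := hsmall
      set rest : MvPolynomial ι K := (((C.inR r).erase s).map C.valS).prod with hrest
      have hrest_hom : rest.IsHomogeneous ((((C.inR r).erase s).map C.degS).sum) :=
        multiset_prod_isHomogeneous _ _ _ fun a _ => isHomogeneous_valS C hC a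
      have hcons : C.inR r = s ::ₘ (C.inR r).erase s := (Multiset.cons_erase hs).symm
      have hval : C.valR r = C.valS s * rest := by
        unfold SPSPS.valR
        rw [hrest]
        conv_lhs => rw [hcons]
        rw [Multiset.map_cons, Multiset.prod_cons]
      have hdsum : C.degS s + (((C.inR r).erase s).map C.degS).sum = n := by
        rw [← hrdeg]
        unfold SPSPS.degR
        conv_rhs => rw [hcons]
        rw [Multiset.map_cons, Multiset.sum_cons]
      have hexp : C.valR r = ∑ p ∈ C.inS s, C.coefS s p • (C.valP p * rest) := by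
        rw [hval]
        unfold SPSPS.valS
        rw [Finset.sum_mul]
        refine Finset.sum_congr rfl fun p _ => ?_
        rw [smul_mul_assoc]
      have hp : ∀ p ∈ C.inS s, ρ (C.valP p * rest) ≤ b := by
        intro p hp
        have hpd : C.degP p = C.degS s := hC.2.1 s p hp
        have ht' : t ≤ ((C.inP p).map C.degB).sum := by
          have : C.degP p = ((C.inP p).map C.degB).sum := rfl
          omega
        obtain ⟨ℓ, R', hℓ, hR, hprod⟩ := exists_split (C.inP p) C.valB C.degB (degB_le_one C)
          (isHomogeneous_valB C hC) t ht'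
        have hvp : C.valP p = (∏ i, ℓ i) * R' := hprod
        rw [hvp, mul_assoc]
        refine h2 ℓ (R' * rest) hℓ ?_
        have := hR.mul hrest_hom
        have e : ((C.inP p).map C.degB).sum - t + (((C.inR r).erase s).map C.degS).sum = n - t := by
          have : C.degP p = ((C.inP p).map C.degB).sum := rfl
          omega
        rwa [e] at this
      rw [hexp]
      refine (rho_sum_le ρ h0 hadd hsmul _ _ _ b hp).trans ?_
      have hc : ((C.inS s).card : ℝ) ≤ Fintype.card P := by
        exact_mod_cast Finset.card_le_univ _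
      nlinarith
  have hfin := rho_sum_le ρ h0 hadd hsmul C.inOut C.coefOut C.valR _ key
  have hc : ((C.inOut).card : ℝ) ≤ Fintype.card R := by
    exact_mod_cast Finset.card_le_univ _
  have hpos : 0 ≤ (1 + (Fintype.card P : ℝ)) * b := by positivity
  calc ρ C.output ≤ (C.inOut.card : ℝ) * ((1 + (Fintype.card P : ℝ)) * b) := hfin
    _ ≤ (Fintype.card R : ℝ) * ((1 + (Fintype.card P : ℝ)) * b) :=
        mul_le_mul_of_nonneg_right hc hpos
    _ = _ := by ring

end Crest.Agent.R327
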