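import Mathlib
import Crest.Prelude.Def_SPSPS

/-!
# R327: definitions for the depth-five lower bound

The measure: rank of the multiplication-by-`P` map on bigraded pieces of the squarefree
algebra `K[x]/(x_i^2)`, in the monomial basis (finsets of variables).
DO NOT EDIT without telling helper141.
-/

set_option autoImplicit false

namespace Crest.Agent.R327

open MvPolynomial Finset

section alg

variable {ι : Type*} [Fintype ι] [DecidableEq ι]

/-- exponent vector of the squarefree monomial with support `S`. -/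
noncomputable def sq (S : Finset ι) : ι →₀ ℕ := ∑ i ∈ S, Finsupp.single i 1

/-- Matrix of multiplication by `P` in `K[x]/(x_i^2)`. -/
noncomputable def mulMat {K : Type*} [Field K] (P : MvPolynomial ι K) :
    Matrix (Finset ι) (Finset ι) K :=
  fun E' E => if E ⊆ E' then coeff (sq (E' \ E)) P else 0

/-- The sets with `p` elements inside `Y` and `q` elements outside `Y`. -/
abbrev Lev (Y : Finset ι) (p q : ℕ) : Type _ :=
  {E : Finset ι // (E ∩ Y).card = p ∧ (E \ Y).card = q}

/-- The block of `mulMat P` from level `(p,q)` to level `(p',q')`. -/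
noncomputable def blk {K : Type*} [Field K] (Y : Finset ι) (P : MvPolynomial ι K)
    (p q p' q' : ℕ) : Matrix (Lev Y p' q') (Lev Y p q) K :=
  fun E' E => mulMat P E'.1 E.1

/-- All monomials of `P` have degree `κ` in the `Y`-variables and `η` in the others. -/
def BiHom {K : Type*} [Field K] (Y : Finset ι) (P : MvPolynomial ι K) (κ η : ℕ) : Prop :=
  ∀ m : ι →₀ ℕ, coeff m P ≠ 0 → (∑ i ∈ Y, m i = κ ∧ ∑ i ∈ Yᶜ, m i = η)

/-- The dimension of level `(p,q)`. -/
def dimLev (Y : Finset ι) (p q : ℕ) : ℕ := (Y.card).choose p * ((Yᶜ).card).choose q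

/-- The part of `P` of degree `κ` in the `Y`-variables. -/
noncomputable def compY {K : Type*} [Field K] (Y : Finset ι) (κ : ℕ) (P : MvPolynomial ι K) :
    MvPolynomial ι K :=
  weightedHomogeneousComponent (fun i => if i ∈ Y then 1 else 0) κ P

/-- The cost function of a homogeneous factor of degree `d`. -/
noncomputable def cost (G α : ℝ) (d : ℕ) : ℝ :=
  ∑ κ ∈ range (d + 1), G ^ (-(|(κ : ℝ) - α * d|) / 2)

/-- number of sets `E` in the level avoiding `A` and containing `P`. -/
noncomputable def cnt (Y : Finset ι) (p q : ℕ) (A P : Finset ι) : ℕ :=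
  ((univ : Finset (Lev Y p q)).filter (fun E => Disjoint E.1 A ∧ P ⊆ E.1)).card

end alg

/-- The variables used by a vertex sequence. -/
def edges {n : ℕ} (s : Fin (n + 1) → Fin n) : Finset (Fin n × Fin n × Fin n) :=
  univ.image (fun i : Fin n => (i, s i.castSucc, s i.succ))

/-- The vertex sequences from `z` to `z`. -/
def pathSet (n : ℕ) (z : Fin n) : Finset (Fin (n + 1) → Fin n) :=
  univ.filter (fun s => s 0 = z ∧ s (Fin.last n) = z)

/-- The 0/1 matrix of the block of the iterated matrix multiplication polynomial. -/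
noncomputable def pathMat (n : ℕ) (hn : 0 < n) (Y : Finset (Fin n × Fin n × Fin n))
    (p q p' q' : ℕ) : Matrix (Lev Y p' q') (Lev Y p q) ℕ :=
  fun E' E => ((pathSet n ⟨0, hn⟩).filter
    (fun s => E.1 ⊆ E'.1 ∧ E'.1 \ E.1 = edges s)).card

/-- The variables in the layers of type `true`. -/
def YY {n : ℕ} (typ : Fin n → Bool) : Finset (Fin n × Fin n × Fin n) :=
  univ.filter (fun v => typ v.1 = true)

/-- number of layers of type `true` -/
def kk {n : ℕ} (typ : Fin n → Bool) : ℕ := (univ.filter (fun i => typ i = true)).card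

/-- number of layers of type `false` -/
def ll {n : ℕ} (typ : Fin n → Bool) : ℕ := (univ.filter (fun i => typ i = false)).card

/-- Compatibility of four vertex sequences at a layer (edges `e1,e3` are `e2,e4` in some order). -/
def Compat {n : ℕ} (s : Fin (n + 1) → Fin n × Fin n × Fin n × Fin n) (i : Fin n) : Prop :=
  let a := s i.castSucc
  let b := s i.succ
  (((a.1, b.1) = (a.2.1, b.2.1) ∧ (a.2.2.1, b.2.2.1) = (a.2.2.2, b.2.2.2)) ∨
   ((a.1, b.1) = (a.2.2.2, b.2.2.2) ∧ (a.2.1, b.2.1) = (a.2.2.1, b.2.2.1)))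

instance {n : ℕ} (s : Fin (n + 1) → Fin n × Fin n × Fin n × Fin n) (i : Fin n) :
    Decidable (Compat s i) := by
  unfold Compat; infer_instance

/-- weight of a layer of a compatible quadruple: `lam` = density of absent sets for this layer type,
the three cases: all four edges equal / parallel / crossed. -/
noncomputable def gw {n : ℕ} (lam : ℝ) (a b : Fin n × Fin n × Fin n × Fin n) : ℝ :=
  if (a.1, b.1) = (a.2.1, b.2.1) ∧ (a.2.2.1, b.2.2.1) = (a.2.2.2, b.2.2.2) then
    (if (a.1, b.1) = (a.2.2.1, b.2.2.1) then lam else lam ^ 2)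
  else if (a.1, b.1) = (a.2.2.2, b.2.2.2) ∧ (a.2.1, b.2.1) = (a.2.2.1, b.2.2.1) then
    lam * (1 - lam)
  else 0

end Crest.Agent.R327
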