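import Mathlib

set_option autoImplicit false

namespace Crest.Agent.R327

open Finset

set_option maxHeartbeats 1600000 in
/-- T12: the final numerical inequality. `bb/F` bounds the relative rank of a term. -/
theorem final_ineq : ∃ n₀ : ℕ, ∀ n ≥ n₀, ∀ (F s : ℝ), 0 < F → 1 ≤ s →
    (∃ (bb : ℝ),
      F ≤ 64 * (n : ℝ) ^ 2 * Real.exp (2 * (1 + 64 * (n : ℝ) ^ (1 / 4 : ℝ))) * (s * s * bb) ∧
      ((∃ m : ℕ, m * Nat.sqrt n ≤ 2 * n + Nat.sqrt n ∧
        bb ≤ F * ((n : ℝ) ^ (1 / 4 : ℝ)) ^ (1 / 2 : ℝ) *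
          ((4 : ℝ) ^ m * ((n : ℝ) ^ (1 / 4 : ℝ)) ^ (-(n : ℝ) / (8 * Nat.sqrt n)))) ∨
       bb ≤ F * ((n : ℝ) ^ (1 / 4 : ℝ)) ^ (1 / 2 : ℝ) *
          ((2 * ((n : ℝ) ^ (1 / 4 : ℝ)) ^ (-(1 : ℝ) / 8)) ^ (Nat.sqrt n) * 4))) →
    (n : ℝ) ^ (Real.sqrt n / 400) ≤ s := by
  refine ⟨⌈Real.exp 1000⌉₊, fun n hn F s hF hs h => ?_⟩
  obtain ⟨bb, h1, h2⟩ := h
  have hn' : Real.exp 1000 ≤ n := le_trans (Nat.le_ceil _) (by exact_mod_cast hn)
  have hn0 : (0 : ℝ) < n := lt_of_lt_of_le (Real.exp_pos _) hn'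
  have hs0 : 0 < s := by linarith
  obtain ⟨L, hLdef⟩ : ∃ L, L = Real.log n := ⟨_, rfl⟩
  have hL : 1000 ≤ L := by
    rw [hLdef, ← Real.log_exp 1000]; exact Real.log_le_log (Real.exp_pos _) hn'
  obtain ⟨y, hydef⟩ : ∃ y, y = (n : ℝ) ^ (1 / 4 : ℝ) := ⟨_, rfl⟩
  rw [← hydef] at h1 h2
  have hyexp : y = Real.exp (L / 4) := by
    rw [hydef, Real.rpow_def_of_pos hn0, hLdef]; congr 1; ring
  have hy0 : 0 < y := by rw [hyexp]; exact Real.exp_pos _
  have hly : Real.log y = L / 4 := by rw [hyexp, Real.log_exp]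
  have hyL : L / 4 + 1 ≤ y := by rw [hyexp]; exact Real.add_one_le_exp _
  have hy : 250 ≤ y := by linarith
  have hnexp : (n : ℝ) = Real.exp L := by rw [hLdef, Real.exp_log hn0]
  have hsq : Real.sqrt n = y ^ 2 := by
    rw [Real.sqrt_eq_iff_mul_self_eq hn0.le (by positivity), hyexp, hnexp, ← Real.exp_nat_mul,
      ← Real.exp_add]
    congr 1; push_cast; ring
  obtain ⟨t, htdef⟩ : ∃ t : ℕ, t = Nat.sqrt n := ⟨_, rfl⟩
  rw [← htdef] at h2
  have ht1 : (t : ℝ) ≤ y ^ 2 := by rw [← hsq, htdef]; exact Real.nat_sqrt_le_real_sqrt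
  have ht2 : y ^ 2 < t + 1 := by
    rw [← hsq, htdef]; exact Real.real_sqrt_lt_nat_sqrt_succ
  have hn4 : (n : ℝ) = y ^ 2 * y ^ 2 := by
    rw [← hsq, Real.mul_self_sqrt hn0.le]
  have ht0 : (0 : ℝ) < t := by nlinarith
  -- the goal in logarithmic form
  have goal_log : y ^ 2 * L / 200 ≤ 2 * Real.log s → (n : ℝ) ^ (Real.sqrt n / 400) ≤ s := by
    intro hlog
    rw [Real.rpow_def_of_pos hn0, ← hLdef, hsq, ← Real.le_log_iff_exp_le hs0]
    linarith
  -- the key inequality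
  have key : ∀ c : ℝ, 0 < c → bb ≤ F * c →
      0 ≤ Real.log 64 + 2 * L + 2 * (1 + 64 * y) + 2 * Real.log s + Real.log c := by
    intro c hc hbc
    have hA : (0 : ℝ) < 64 * (n : ℝ) ^ 2 * Real.exp (2 * (1 + 64 * y)) := by positivity
    have h3 : F ≤ 64 * (n : ℝ) ^ 2 * Real.exp (2 * (1 + 64 * y)) * (s * s * (F * c)) :=
      le_trans h1 (by gcongr)
    have h4 : 1 ≤ 64 * (n : ℝ) ^ 2 * Real.exp (2 * (1 + 64 * y)) * (s * s * c) := by
      have h5 : F * 1 ≤ F * (64 * (n : ℝ) ^ 2 * Real.exp (2 * (1 + 64 * y)) * (s * s * c)) := by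
        linarith
      exact le_of_mul_le_mul_left h5 hF
    have h6 := Real.log_le_log one_pos h4
    rw [Real.log_one, Real.log_mul hA.ne' (by positivity), Real.log_mul (by positivity)
      (by positivity), Real.log_mul (by norm_num) (by positivity), Real.log_exp,
      Real.log_mul (by positivity) hc.ne', Real.log_mul hs0.ne' hs0.ne', Real.log_pow,
      ← hLdef] at h6
    push_cast at h6
    linarith
  have hlog4 : Real.log 4 ≤ 1.4 := by
    rw [show (4 : ℝ) = 2 ^ 2 by norm_num, Real.log_pow]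
    have := Real.log_two_lt_d9
    push_cast; linarith
  have hlog64 : Real.log 64 ≤ 4.2 := by
    rw [show (64 : ℝ) = 2 ^ 6 by norm_num, Real.log_pow]
    have := Real.log_two_lt_d9
    push_cast; linarith
  have hlog2 : Real.log 2 ≤ 0.7 := by
    have := Real.log_two_lt_d9
    linarith
  have hlog4pos : 0 ≤ Real.log 4 := Real.log_nonneg (by norm_num)
  apply goal_log
  rcases h2 with ⟨m, hm, hb⟩ | hb
  · have hc := key (y ^ (1 / 2 : ℝ) * ((4 : ℝ) ^ m * y ^ (-(n : ℝ) / (8 * t))))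
      (by positivity) (by rw [← mul_assoc]; exact hb)
    rw [Real.log_mul (by positivity) (by positivity), Real.log_mul (by positivity)
      (by positivity), Real.log_rpow hy0, Real.log_rpow hy0, Real.log_pow, hly] at hc
    -- w = n / t
    obtain ⟨w, hw⟩ : ∃ w : ℝ, w = (n : ℝ) / t := ⟨_, rfl⟩
    have hw1 : y ^ 2 ≤ w := by
      rw [hw, le_div_iff₀ ht0, hn4]
      exact mul_le_mul_of_nonneg_left ht1 (by positivity)
    have hmw : (m : ℝ) ≤ 2 * w + 1 := by
      have hm' : (m : ℝ) * t ≤ 2 * n + t := by exact_mod_cast hm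
      have : (m : ℝ) * t ≤ (2 * w + 1) * t := by
        rw [hw]; field_simp; linarith
      exact le_of_mul_le_mul_right this ht0
    have hexp : -(n : ℝ) / (8 * t) * (L / 4) = -(w * L / 32) := by
      rw [hw]; field_simp; ring
    rw [hexp] at hc
    have hmlog : (m : ℝ) * Real.log 4 ≤ (2 * w + 1) * 1.4 := by
      have hw0 : 0 ≤ 2 * w + 1 := by nlinarith
      exact mul_le_mul hmw hlog4 hlog4pos hw0
    have hyw : y * 250 ≤ w := by nlinarith
    have hLw : w * 1000 ≤ w * L := mul_le_mul_of_nonneg_left hL (by nlinarith)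
    have hyL2 : y ^ 2 * L ≤ w * L := mul_le_mul_of_nonneg_right hw1 (by linarith)
    have hLy : L ≤ 4 * y := by linarith
    linarith
  · have hc := key (y ^ (1 / 2 : ℝ) * ((2 * y ^ (-(1 : ℝ) / 8)) ^ t * 4))
      (by positivity) (by rw [← mul_assoc]; exact hb)
    rw [Real.log_mul (by positivity) (by positivity), Real.log_mul (by positivity)
      (by positivity), Real.log_rpow hy0, Real.log_pow, Real.log_mul (by positivity)
      (by positivity), Real.log_rpow hy0, hly] at hc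
    have hyw : y * 250 ≤ y ^ 2 := by nlinarith
    have hLw : y ^ 2 * 1000 ≤ y ^ 2 * L := mul_le_mul_of_nonneg_left hL (by positivity)
    have hLy : L ≤ 4 * y := by linarith
    have ht3 : (y ^ 2 - 1) * (L / 32 - 0.7) ≤ t * (L / 32 - Real.log 2) := by
      have : y ^ 2 - 1 ≤ t := by linarith
      have h7 : L / 32 - 0.7 ≤ L / 32 - Real.log 2 := by linarith
      exact mul_le_mul this h7 (by linarith) ht0.le
    have h8 : (t : ℝ) * (Real.log 2 + -1 / 8 * (L / 4)) = -(t * (L / 32 - Real.log 2)) := by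
      ring
    rw [h8] at hc
    have h9 : (y ^ 2 - 1) * (L / 32 - 0.7) = y ^ 2 * L / 32 - 0.7 * y ^ 2 - L / 32 + 0.7 := by
      ring
    rw [h9] at ht3
    linarith

end Crest.Agent.R327
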