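import Mathlib

set_option autoImplicit false

namespace Crest.Agent.R327

open MvPolynomial Finset

/-- In a multiset of naturals-labelled items in which any two labels sum to more than `t`, the
cardinality times `t` is at most twice the sum of the labels plus `t`. -/
theorem card_mul_le_of_pairwise {β : Type*} (t : ℕ) (s : Multiset (β × ℕ))
    (h : ∀ x y r, s = x ::ₘ y ::ₘ r → t < x.2 + y.2) :
    Multiset.card s * t ≤ 2 * (s.map Prod.snd).sum + t := by
  have key : ∀ r : Multiset (β × ℕ), (∀ y ∈ r, t ≤ 2 * y.2) →
      Multiset.card r * t ≤ 2 * (r.map Prod.snd).sum := by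
    intro r
    induction r using Multiset.induction_on with
    | empty => intro _; simp
    | cons a r ih =>
      intro hr
      have h1 := ih (fun y hy => hr y (Multiset.mem_cons_of_mem hy))
      have h2 := hr a (Multiset.mem_cons_self a r)
      simp only [Multiset.card_cons, Multiset.map_cons, Multiset.sum_cons]
      nlinarith
  by_cases hx : ∃ x ∈ s, 2 * x.2 ≤ t
  · obtain ⟨x, hxs, hx2⟩ := hx
    obtain ⟨r, rfl⟩ := Multiset.exists_cons_of_mem hxs
    have hr : ∀ y ∈ r, t ≤ 2 * y.2 := by
      intro y hy
      obtain ⟨r', rfl⟩ := Multiset.exists_cons_of_mem hy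
      have := h x y r' rfl
      omega
    have h1 := key r hr
    simp only [Multiset.card_cons, Multiset.map_cons, Multiset.sum_cons]
    nlinarith
  · push Not at hx
    have h1 := key s (fun y hy => (hx y hy).le)
    omega

/-- T5: grouping factors of degree `≤ t` into at most `2n/t + 1` factors of degree `≤ t`
(take a multiset with the same product and minimal cardinality: no two members can be merged). -/
theorem exists_grouping {K ι : Type*} [Field K] (t n : ℕ) (ht : 1 ≤ t)
    (s : Multiset (MvPolynomial ι K × ℕ)) (hs : ∀ x ∈ s, x.1.IsHomogeneous x.2 ∧ x.2 ≤ t)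
    (hsum : (s.map Prod.snd).sum = n) :
    ∃ (m : ℕ) (Q : Fin m → MvPolynomial ι K) (d : Fin m → ℕ),
      (∀ i, (Q i).IsHomogeneous (d i) ∧ d i ≤ t) ∧ ∑ i, d i = n ∧
      ∏ i, Q i = (s.map Prod.fst).prod ∧ m * t ≤ 2 * n + t := by
  induction hk : Multiset.card s using Nat.strong_induction_on generalizing s with
  | _ k ih =>
    by_cases hmerge : ∃ x y r, s = x ::ₘ y ::ₘ r ∧ x.2 + y.2 ≤ t
    · obtain ⟨x, y, r, rfl, hxy⟩ := hmerge
      have hx := hs x (by simp)
      have hy := hs y (by simp)
      obtain ⟨m, Q, d, h1, h2, h3, h4⟩ := ih (Multiset.card ((x.1 * y.1, x.2 + y.2) ::ₘ r))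
        (by rw [← hk]; simp) ((x.1 * y.1, x.2 + y.2) ::ₘ r)
        (by
          intro z hz
          rw [Multiset.mem_cons] at hz
          rcases hz with rfl | hz
          · exact ⟨hx.1.mul hy.1, hxy⟩
          · exact hs z (by simp [hz]))
        (by
          rw [← hsum]
          simp [add_assoc])
        rfl
      refine ⟨m, Q, d, h1, h2, ?_, h4⟩
      rw [h3]
      simp [mul_assoc]
    · push Not at hmerge
      have hcard := card_mul_le_of_pairwise t s hmerge
      rw [hsum] at hcard
      refine ⟨s.toList.length, fun i => (s.toList[i]).1, fun i => (s.toList[i]).2, ?_, ?_, ?_, ?_⟩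
      · intro i
        exact hs _ (Multiset.mem_toList.1 (List.getElem_mem _))
      · rw [← hsum]
        conv_rhs => rw [← Multiset.coe_toList s]
        rw [Multiset.map_coe, Multiset.sum_coe]
        exact Fin.sum_univ_fun_getElem s.toList Prod.snd
      · conv_rhs => rw [← Multiset.coe_toList s]
        rw [Multiset.map_coe, Multiset.prod_coe]
        exact Fin.prod_univ_fun_getElem s.toList Prod.fst
      · rw [Multiset.length_toList]
        exact hcard

end Crest.Agent.R327
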