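import Crest.Agent.R327.Paths
import Crest.Agent.R327.Chain

set_option autoImplicit false

namespace Crest.Agent.R327

open Finset

/-- Transfer bound for vertex sequences with prescribed endpoints. -/
theorem chain_filter_le {V : Type*} [Fintype V] [DecidableEq V] (n : ℕ) (g : Fin n → V → V → ℝ)
    (h : Fin (n + 1) → V → ℝ) (x ve : V)
    (hg : ∀ l v v', 0 ≤ g l v v')
    (hstep : ∀ l : Fin n, ∀ v, ∑ v', g l v v' * h l.succ v' ≤ h l.castSucc v)
    (hlast : 1 ≤ h (Fin.last n) ve) (hlast0 : ∀ v, 0 ≤ h (Fin.last n) v) :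
    ∑ s ∈ (univ : Finset (Fin (n + 1) → V)).filter (fun s => s 0 = x ∧ s (Fin.last n) = ve),
      ∏ i : Fin n, g i (s i.castSucc) (s i.succ) ≤ h 0 x := by
  rw [Finset.sum_filter]
  induction n generalizing x with
  | zero =>
    rw [Walk.sum_cons']
    simp only [Finset.univ_unique, Finset.sum_singleton, Fin.cons_zero]
    have : ∀ y : V, (Fin.cons y (default : Fin 0 → V) : Fin 1 → V) (Fin.last 0) = y := fun y => rfl
    simp only [this]
    by_cases hx : x = ve
    · subst hx
      rw [Finset.sum_eq_single x]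
      · simpa using hlast
      · intro y _ hy; simp [hy]
      · simp
    · rw [Finset.sum_eq_zero]
      · simpa using hlast0 x
      · intro y _
        rw [if_neg]
        rintro ⟨h1, h2⟩
        exact hx (h1.symm.trans h2)
  | succ n ih =>
    rw [Walk.sum_cons']
    -- first vertex forced to be `x`
    have h1 : ∑ y : V, ∑ s : Fin (n + 1) → V,
        (if (Fin.cons y s : Fin (n + 1 + 1) → V) 0 = x ∧
            (Fin.cons y s : Fin (n + 1 + 1) → V) (Fin.last (n + 1)) = ve then
          ∏ i : Fin (n + 1), g i ((Fin.cons y s : Fin (n + 1 + 1) → V) i.castSucc)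
            ((Fin.cons y s : Fin (n + 1 + 1) → V) i.succ) else 0)
        = ∑ v' : V, g 0 x v' * ∑ s : Fin (n + 1) → V,
            (if s 0 = v' ∧ s (Fin.last n) = ve then
              ∏ i : Fin n, g i.succ (s i.castSucc) (s i.succ) else 0) := by
      rw [Finset.sum_eq_single x]
      · simp only [Finset.mul_sum]
        rw [Finset.sum_comm]
        refine Finset.sum_congr rfl fun s _ => ?_
        rw [Finset.sum_eq_single (s 0)]
        · have hl : (Fin.cons x s : Fin (n + 1 + 1) → V) (Fin.last (n + 1)) = s (Fin.last n) := by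
            rw [← Fin.succ_last, Fin.cons_succ]
          rw [hl, Fin.prod_univ_succ]
          by_cases hv : s (Fin.last n) = ve
          · rw [if_pos ⟨rfl, hv⟩, if_pos ⟨rfl, hv⟩]
            rfl
          · rw [if_neg (fun h => hv h.2), if_neg (fun h => hv h.2), mul_zero]
        · intro v' _ hv'
          rw [if_neg (fun h => hv' h.1.symm), mul_zero]
        · intro h; exact absurd (Finset.mem_univ _) h
      · intro y _ hy
        refine Finset.sum_eq_zero fun s _ => ?_
        rw [if_neg]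
        rintro ⟨h1, _⟩
        exact hy (by simpa using h1)
      · intro h; exact absurd (Finset.mem_univ _) h
    rw [h1]
    calc ∑ v' : V, g 0 x v' * ∑ s : Fin (n + 1) → V,
            (if s 0 = v' ∧ s (Fin.last n) = ve then
              ∏ i : Fin n, g i.succ (s i.castSucc) (s i.succ) else 0)
        ≤ ∑ v' : V, g 0 x v' * h (Fin.succ 0) v' := by
          refine Finset.sum_le_sum fun v' _ => mul_le_mul_of_nonneg_left ?_ (hg _ _ _)
          exact ih (fun i => g i.succ) (fun i => h i.succ) v' (fun l v v'' => hg _ _ _)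
            (fun l v => hstep l.succ v) hlast hlast0
      _ ≤ h 0 x := hstep 0 x

theorem gw_eq {n : ℕ} {lam : ℝ} (h : lam ≠ 0) (a b : Fin n × Fin n × Fin n × Fin n) :
    gw lam a b = lam ^ 2 * Walk.gN (1 / lam) ((1 - lam) / lam) a b := by
  have e1 : ((a.1 = a.2.1 ∧ b.1 = b.2.1) ∧ a.2.2.1 = a.2.2.2 ∧ b.2.2.1 = b.2.2.2) ↔
      (a.1 = a.2.1 ∧ a.2.2.1 = a.2.2.2 ∧ b.1 = b.2.1 ∧ b.2.2.1 = b.2.2.2) := by tauto
  have e2 : ((a.1 = a.2.2.2 ∧ b.1 = b.2.2.2) ∧ a.2.1 = a.2.2.1 ∧ b.2.1 = b.2.2.1) ↔
      (a.1 = a.2.2.2 ∧ a.2.1 = a.2.2.1 ∧ b.1 = b.2.2.2 ∧ b.2.1 = b.2.2.1) := by tauto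
  unfold gw Walk.gN
  simp only [Prod.mk.injEq, e1, e2]
  split_ifs
  · field_simp
  · ring
  · field_simp
  · ring

/-- T9: the transfer-matrix bound. `lam i ∈ (0,1)` is the density of absent sets in layer `i`;
`ψ` is a potential for the ratios `(1 - lam i)/lam i`. -/
theorem transfer_bound (n : ℕ) (hn : 0 < n) (z : Fin n × Fin n × Fin n × Fin n)
    (hz : z.2.1 = z.1 ∧ z.2.2.1 = z.1 ∧ z.2.2.2 = z.1)
    (lam : Fin n → ℝ) (hlam : ∀ i, 0 < lam i ∧ lam i < 1) (G : ℝ) (hG : 1 ≤ G)
    (hh : ∀ i, 2 ≤ n * lam i)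
    (ψ : Fin (n + 1) → ℝ) (hψ : ∀ i, 1 / G ≤ ψ i ∧ ψ i ≤ 1)
    (hψs : ∀ i : Fin n, ψ i.castSucc = (1 - lam i) / lam i * ψ i.succ) :
    ∑ s ∈ (univ : Finset (Fin (n + 1) → Fin n × Fin n × Fin n × Fin n)).filter
          (fun s => s 0 = z ∧ s (Fin.last n) = z), ∏ i : Fin n, gw (lam i) (s i.castSucc) (s i.succ)
      ≤ (∏ i, lam i ^ 2) * (n : ℝ) ^ (2 * n) * Real.exp (2 * (1 + G)) := by
  have hG0 : 0 < G := by linarith
  have hn0 : (0 : ℝ) < n := by exact_mod_cast hn
  set H : ℝ := 1 + G with hH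
  set X : ℝ := (n : ℝ) ^ 2 - n + n * H with hX
  have hXeq : X = (n : ℝ) ^ 2 * (1 + G / n) := by
    rw [hX, hH]; field_simp; ring
  have hX0 : 0 ≤ X := by rw [hXeq]; positivity
  have hψ0 : ∀ i, 0 < ψ i := fun i => lt_of_lt_of_le (by positivity) (hψ i).1
  have hw : ∀ i : Fin n, (1 - lam i) / lam i * (G * ψ i.succ) = G * ψ i.castSucc := by
    intro i; rw [hψs i]; ring
  have hw0 : ∀ i : Fin n, 0 ≤ (1 - lam i) / lam i := fun i =>
    div_nonneg (by linarith [(hlam i).2]) (hlam i).1.le
  have hwG : ∀ i : Fin n, (1 - lam i) / lam i ≤ G := by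
    intro i
    have h1 := hψs i
    have h2 : (1 - lam i) / lam i * (1 / G) ≤ (1 - lam i) / lam i * ψ i.succ :=
      mul_le_mul_of_nonneg_left (hψ _).1 (hw0 i)
    have h3 : (1 - lam i) / lam i * (1 / G) ≤ 1 := by linarith [(hψ i.castSucc).2]
    rw [mul_one_div, div_le_one hG0] at h3
    exact h3
  have hcG : ∀ i : Fin n, 1 / lam i ≤ H := by
    intro i
    have h1 : 1 / lam i = 1 + (1 - lam i) / lam i := by
      have := (hlam i).1.ne'
      field_simp; ring
    rw [h1, hH]; linarith [hwG i]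
  have key := chain_filter_le n (fun i => Walk.gN (α := Fin n) (1 / lam i) ((1 - lam i) / lam i))
    (fun i => Walk.hN H (G * ψ i) (X ^ (n - (i : ℕ)) / H)) z z
    (fun l v v' => Walk.gN_nonneg (by have := (hlam l).1; positivity) (hw0 l) v v')
    (by
      intro l v
      have hs := Walk.step_le (α := Fin n) (c := 1 / lam l) (w := (1 - lam l) / lam l) (H := H)
        (K₀ := G * ψ l.castSucc) (K₁ := G * ψ l.succ)
        (R := X ^ (n - ((l.succ : Fin (n + 1)) : ℕ)) / H)
        (by have := (hlam l).1; positivity) (hcG l) (hw0 l) (by linarith)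
        (by
          have := (hψ l.succ).1
          rw [div_le_iff₀ hG0] at this
          linarith)
        (by positivity) (hw l).le
        (by
          rw [hw l, hH]
          have := (hψ l.castSucc).2
          nlinarith) v
      rw [Fintype.card_fin, ← hX] at hs
      have hp : X * (X ^ (n - ((l.succ : Fin (n + 1)) : ℕ)) / H)
          = X ^ (n - ((l.castSucc : Fin (n + 1)) : ℕ)) / H := by
        rw [← mul_div_assoc, ← pow_succ']
        congr 2
        have := l.2
        simp only [Fin.val_succ, Fin.val_castSucc]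
        omega
      rw [hp] at hs
      exact hs)
    (by
      simp only [Walk.hN, Fin.val_last, Nat.sub_self, pow_zero]
      rw [if_pos ⟨hz.1.symm, by rw [hz.2.1, hz.2.2]⟩, if_pos hz.2.1.symm]
      rw [mul_one_div, div_self (by linarith)])
    (by
      intro v
      exact Walk.hN_nonneg (by linarith) (by have := hψ0 (Fin.last n); positivity)
        (by positivity) v)
  have hgw : ∀ s : Fin (n + 1) → Fin n × Fin n × Fin n × Fin n,
      ∏ i : Fin n, gw (lam i) (s i.castSucc) (s i.succ)
        = (∏ i, lam i ^ 2) * ∏ i : Fin n, Walk.gN (1 / lam i) ((1 - lam i) / lam i)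
            (s i.castSucc) (s i.succ) := by
    intro s
    rw [← Finset.prod_mul_distrib]
    exact Finset.prod_congr rfl fun i _ => gw_eq (hlam i).1.ne' _ _
  simp only [hgw, ← Finset.mul_sum]
  rw [mul_assoc]
  refine mul_le_mul_of_nonneg_left ?_ (Finset.prod_nonneg fun i _ => sq_nonneg _)
  refine key.trans ?_
  simp only [Walk.hN]
  rw [if_pos ⟨hz.1.symm, by rw [hz.2.1, hz.2.2]⟩, if_pos hz.2.1.symm]
  have h0 : H * (X ^ (n - ((0 : Fin (n + 1)) : ℕ)) / H) = X ^ n := by
    have : H ≠ 0 := by linarith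
    simp only [Fin.val_zero, Nat.sub_zero]
    field_simp
  rw [h0, hXeq, mul_pow, ← pow_mul]
  refine mul_le_mul_of_nonneg_left ?_ (by positivity)
  have h1 : (1 + G / n) ^ n ≤ Real.exp G := by
    have h2 : 1 + G / n ≤ Real.exp (G / n) := by
      have := Real.add_one_le_exp (G / n)
      linarith
    calc (1 + G / n) ^ n ≤ Real.exp (G / n) ^ n := by
          apply pow_le_pow_left₀ (by positivity) h2
      _ = Real.exp G := by
          rw [← Real.exp_nat_mul]
          congr 1
          field_simp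
  exact h1.trans (Real.exp_le_exp.mpr (by linarith))

end Crest.Agent.R327
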