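import Crest.Agent.R327.Count

set_option autoImplicit false

namespace Crest.Agent.R327

open Finset Crest.ArithCircuit

theorem mem_edges {n : ℕ} (s : Fin (n + 1) → Fin n) (v : Fin n × Fin n × Fin n) :
    v ∈ edges s ↔ v.2.1 = s v.1.castSucc ∧ v.2.2 = s v.1.succ := by
  obtain ⟨i, a, b⟩ := v
  simp only [edges, mem_image, mem_univ, true_and, Prod.mk.injEq]
  constructor
  · rintro ⟨j, rfl, rfl, rfl⟩
    exact ⟨rfl, rfl⟩
  · rintro ⟨rfl, rfl⟩
    exact ⟨i, rfl, rfl, rfl⟩

theorem mem_edges_self {n : ℕ} (s : Fin (n + 1) → Fin n) (i : Fin n) :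
    (i, s i.castSucc, s i.succ) ∈ edges s := by
  rw [mem_edges]; exact ⟨rfl, rfl⟩

/-- T7a: lower bound for the total number of pairs. (`card_pathSet`, `card_edges_inter/sdiff`;
may use `cnt_eq` of Count.lean with `P = ∅`, `A = edges s`: import it if needed.) -/
theorem sum_pathMat_sq_ge (n : ℕ) (hn : 0 < n) (typ : Fin n → Bool) (p q : ℕ) :
    ((n ^ (n - 1) * (((YY typ).card - kk typ).choose p * (((YY typ)ᶜ).card - ll typ).choose q) : ℕ) : ℝ)
      ≤ ∑ E', ∑ E, (pathMat n hn (YY typ) p q (p + kk typ) (q + ll typ) E' E : ℝ) ^ 2 := by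
  have h1 : ∀ s : Fin (n + 1) → Fin n,
      cnt (YY typ) p q (edges s) ∅ =
        ((YY typ).card - kk typ).choose p * (((YY typ)ᶜ).card - ll typ).choose q := by
    intro s
    rw [cnt_eq (YY typ) p q (edges s) ∅ (Finset.disjoint_empty_right _) (by simp) (by simp)]
    rw [card_edges_inter, card_edges_sdiff]
    simp
  have h2 : n ^ (n - 1) * (((YY typ).card - kk typ).choose p * (((YY typ)ᶜ).card - ll typ).choose q)
      = ∑ s ∈ pathSet n ⟨0, hn⟩, cnt (YY typ) p q (edges s) ∅ := by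
    rw [Finset.sum_congr rfl (fun s _ => h1 s), Finset.sum_const, card_pathSet, smul_eq_mul]
  have h3 : ∑ s ∈ pathSet n ⟨0, hn⟩, cnt (YY typ) p q (edges s) ∅ ≤
      ∑ E' : Lev (YY typ) (p + kk typ) (q + ll typ), ∑ E : Lev (YY typ) p q,
        pathMat n hn (YY typ) p q (p + kk typ) (q + ll typ) E' E := by
    unfold pathMat cnt
    simp only [Finset.card_filter]
    have hcomm : (∑ E' : Lev (YY typ) (p + kk typ) (q + ll typ), ∑ E : Lev (YY typ) p q,
        ∑ s ∈ pathSet n ⟨0, hn⟩, if E.1 ⊆ E'.1 ∧ E'.1 \ E.1 = edges s then (1:ℕ) else 0) =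
        ∑ s ∈ pathSet n ⟨0, hn⟩, ∑ E : Lev (YY typ) p q,
          ∑ E' : Lev (YY typ) (p + kk typ) (q + ll typ),
            if E.1 ⊆ E'.1 ∧ E'.1 \ E.1 = edges s then (1:ℕ) else 0 := by
      rw [Finset.sum_comm]
      rw [Finset.sum_congr rfl (fun (E : Lev (YY typ) p q) _ => Finset.sum_comm)]
      rw [Finset.sum_comm]
    rw [hcomm]
    refine Finset.sum_le_sum (fun s _ => ?_)
    refine Finset.sum_le_sum (fun E _ => ?_)
    by_cases hE : Disjoint E.1 (edges s) ∧ (∅ : Finset _) ⊆ E.1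
    · rw [if_pos hE]
      have hd := hE.1
      have hmem : ((E.1 ∪ edges s) ∩ YY typ).card = p + kk typ ∧
          ((E.1 ∪ edges s) \ YY typ).card = q + ll typ := by
        constructor
        · rw [Finset.union_inter_distrib_right, Finset.card_union_of_disjoint, E.2.1,
            card_edges_inter]
          exact Finset.disjoint_of_subset_left Finset.inter_subset_left
            (Finset.disjoint_of_subset_right Finset.inter_subset_left hd)
        · rw [Finset.union_sdiff_distrib, Finset.card_union_of_disjoint, E.2.2,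
            card_edges_sdiff]
          exact Finset.disjoint_of_subset_left Finset.sdiff_subset
            (Finset.disjoint_of_subset_right Finset.sdiff_subset hd)
      refine le_trans ?_ (Finset.single_le_sum (f := fun E' : Lev (YY typ) (p + kk typ) (q + ll typ) =>
        if E.1 ⊆ E'.1 ∧ E'.1 \ E.1 = edges s then (1:ℕ) else 0) (fun _ _ => by positivity)
        (Finset.mem_univ ⟨E.1 ∪ edges s, hmem⟩))
      simp only
      rw [if_pos]
      refine ⟨Finset.subset_union_left, ?_⟩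
      rw [Finset.union_sdiff_left]
      exact Finset.sdiff_eq_self_of_disjoint hd.symm
    · rw [if_neg hE]; exact Nat.zero_le _
  rw [h2]
  calc ((∑ s ∈ pathSet n ⟨0, hn⟩, cnt (YY typ) p q (edges s) ∅ : ℕ) : ℝ)
      ≤ ((∑ E' : Lev (YY typ) (p + kk typ) (q + ll typ), ∑ E : Lev (YY typ) p q,
        pathMat n hn (YY typ) p q (p + kk typ) (q + ll typ) E' E : ℕ) : ℝ) := by
        exact_mod_cast h3
    _ ≤ ∑ E', ∑ E, (pathMat n hn (YY typ) p q (p + kk typ) (q + ll typ) E' E : ℝ) ^ 2 := by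
        push_cast
        refine Finset.sum_le_sum (fun E' _ => Finset.sum_le_sum (fun E _ => ?_))
        have : ((pathMat n hn (YY typ) p q (p + kk typ) (q + ll typ) E' E : ℕ) : ℝ) ≤
          (((pathMat n hn (YY typ) p q (p + kk typ) (q + ll typ) E' E) ^ 2 : ℕ) : ℝ) := by
          exact_mod_cast Nat.le_self_pow (by norm_num) _
        simpa using this

/-- T7b: the number of closed 4-walks is at most a sum over compatible quadruples of paths:
a closed 4-walk is `E₁ ⊔ e(s₁) = E' = E₂ ⊔ e(s₂)`, `E₂ ⊔ e(s₃) = E'' = E₁ ⊔ e(s₄)`; it is determined by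
`(E₁, s₁, s₂, s₃, s₄)`, and indicator functions give `e(s₁)+e(s₃) = e(s₂)+e(s₄)`, i.e. `Compat`. -/
theorem sum_walk_le (n : ℕ) (hn : 0 < n) (typ : Fin n → Bool) (p q p' q' : ℕ) :
    ∑ E₁, ∑ E₂, (∑ E', (pathMat n hn (YY typ) p q p' q' E' E₁ : ℝ) *
        (pathMat n hn (YY typ) p q p' q' E' E₂ : ℝ)) ^ 2 ≤
      ∑ s ∈ (univ : Finset (Fin (n + 1) → Fin n × Fin n × Fin n × Fin n)).filter
          (fun s => s 0 = (⟨0, hn⟩, ⟨0, hn⟩, ⟨0, hn⟩, ⟨0, hn⟩) ∧
            s (Fin.last n) = (⟨0, hn⟩, ⟨0, hn⟩, ⟨0, hn⟩, ⟨0, hn⟩) ∧ ∀ i, Compat s i),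
        (cnt (YY typ) p q (edges (fun i => (s i).1) ∪ edges (fun i => (s i).2.2.2))
          (edges (fun i => (s i).2.1) \ edges (fun i => (s i).1)) : ℝ) := by
  classical
  set z : Fin n := ⟨0, hn⟩ with hz
  set Y := YY typ with hY
  -- the relation
  let R : Lev Y p' q' → Lev Y p q → (Fin (n + 1) → Fin n) → Prop :=
    fun E' E s => s ∈ pathSet n z ∧ E.1 ⊆ E'.1 ∧ E'.1 \ E.1 = edges s
  have hcard : ∀ E' E, pathMat n hn Y p q p' q' E' E =
      ((univ : Finset (Fin (n + 1) → Fin n)).filter (fun s => R E' E s)).card := by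
    intro E' E
    unfold pathMat
    congr 1
    ext s
    simp [R, hz]
  -- target set
  let T : Finset (Σ _ : Fin (n + 1) → Fin n × Fin n × Fin n × Fin n, Lev Y p q) :=
    ((univ : Finset (Fin (n + 1) → Fin n × Fin n × Fin n × Fin n)).filter
          (fun s => s 0 = (z, z, z, z) ∧
            s (Fin.last n) = (z, z, z, z) ∧ ∀ i, Compat s i)).sigma
      (fun s => (univ : Finset (Lev Y p q)).filter (fun E =>
        Disjoint E.1 (edges (fun i => (s i).1) ∪ edges (fun i => (s i).2.2.2)) ∧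
          (edges (fun i => (s i).2.1) \ edges (fun i => (s i).1)) ⊆ E.1))
  have hT : (T.card : ℝ) = ∑ s ∈ (univ : Finset (Fin (n + 1) → Fin n × Fin n × Fin n × Fin n)).filter
          (fun s => s 0 = (z, z, z, z) ∧
            s (Fin.last n) = (z, z, z, z) ∧ ∀ i, Compat s i),
        (cnt Y p q (edges (fun i => (s i).1) ∪ edges (fun i => (s i).2.2.2))
          (edges (fun i => (s i).2.1) \ edges (fun i => (s i).1)) : ℝ) := by
    simp only [T, Finset.card_sigma, cnt]
    push_cast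
    rfl
  rw [← hT]
  -- source set
  let A : Finset ((Lev Y p q × Lev Y p q × Lev Y p' q' × Lev Y p' q') ×
      ((Fin (n + 1) → Fin n) × (Fin (n + 1) → Fin n) × (Fin (n + 1) → Fin n) × (Fin (n + 1) → Fin n))) :=
    univ.filter (fun x => R x.1.2.2.1 x.1.1 x.2.1 ∧ R x.1.2.2.1 x.1.2.1 x.2.2.1 ∧
      R x.1.2.2.2 x.1.2.1 x.2.2.2.1 ∧ R x.1.2.2.2 x.1.1 x.2.2.2.2)
  have hA : ((A.card : ℕ) : ℝ) = ∑ E₁, ∑ E₂, (∑ E', (pathMat n hn Y p q p' q' E' E₁ : ℝ) *
        (pathMat n hn Y p q p' q' E' E₂ : ℝ)) ^ 2 := by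
    have hN : A.card = ∑ E₁, ∑ E₂, (∑ E', (pathMat n hn Y p q p' q' E' E₁) *
        (pathMat n hn Y p q p' q' E' E₂)) ^ 2 := by
      simp only [A, Finset.card_filter, Fintype.sum_prod_type, hcard]
      simp only [pow_two (∑ E', _)]
      simp only [Finset.sum_mul_sum univ univ (fun E' : Lev Y p' q' => _ * _)]
      refine Finset.sum_congr rfl (fun E₁ _ => Finset.sum_congr rfl (fun E₂ _ =>
        Finset.sum_congr rfl (fun E' _ => Finset.sum_congr rfl (fun E'' _ => ?_))))
      have hmul : ∀ (P1 P2 P3 P4 : (Fin (n + 1) → Fin n) → Prop) [DecidablePred P1]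
          [DecidablePred P2] [DecidablePred P3] [DecidablePred P4],
          (∑ a, ∑ b, ∑ c, ∑ d, if P1 a ∧ P2 b ∧ P3 c ∧ P4 d then (1:ℕ) else 0) =
          (∑ a, if P1 a then 1 else 0) * (∑ b, if P2 b then 1 else 0) *
            ((∑ d, if P4 d then 1 else 0) * (∑ c, if P3 c then 1 else 0)) := by
        intro P1 P2 P3 P4 _ _ _ _
        have e1 : ∀ a b c d, (if P1 a ∧ P2 b ∧ P3 c ∧ P4 d then (1:ℕ) else 0) =
          (if P1 a then 1 else 0) * ((if P2 b then 1 else 0) * ((if P3 c then 1 else 0) *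
            (if P4 d then 1 else 0))) := by
          intro a b c d
          by_cases h1 : P1 a <;> by_cases h2 : P2 b <;> by_cases h3 : P3 c <;> by_cases h4 : P4 d <;>
            simp [h1, h2, h3, h4]
        simp only [e1]
        simp only [← Finset.mul_sum, ← Finset.sum_mul]
        ring
      exact hmul (R E' E₁) (R E' E₂) (R E'' E₂) (R E'' E₁)
    rw [hN]
    push_cast
    rfl
  rw [← hA]
  have : A.card ≤ T.card := by
    refine Finset.card_le_card_of_injOn
      (fun x => ⟨fun i => (x.2.1 i, x.2.2.1 i, x.2.2.2.1 i, x.2.2.2.2 i), x.1.1⟩) ?_ ?_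
    · rintro ⟨⟨E₁, E₂, E', E''⟩, ⟨s1, s2, s3, s4⟩⟩ hx
      simp only [A, coe_filter, mem_univ, true_and, Set.mem_ofPred_eq, R, pathSet, mem_filter] at hx
      obtain ⟨⟨⟨a0, al⟩, a1, a2⟩, ⟨⟨b0, bl⟩, b1, b2⟩, ⟨⟨c0, cl⟩, c1, c2⟩, ⟨⟨d0, dl⟩, d1, d2⟩⟩ := hx
      have m1 : ∀ v, v ∈ edges s1 ↔ v ∈ E'.1 ∧ v ∉ E₁.1 := by
        intro v; rw [← a2]; simp
      have m2 : ∀ v, v ∈ edges s2 ↔ v ∈ E'.1 ∧ v ∉ E₂.1 := by
        intro v; rw [← b2]; simp
      have m3 : ∀ v, v ∈ edges s3 ↔ v ∈ E''.1 ∧ v ∉ E₂.1 := by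
        intro v; rw [← c2]; simp
      have m4 : ∀ v, v ∈ edges s4 ↔ v ∈ E''.1 ∧ v ∉ E₁.1 := by
        intro v; rw [← d2]; simp
      simp only [T, coe_sigma, Set.mem_sigma_iff, coe_filter, mem_univ, true_and, Set.mem_ofPred_eq]
      refine ⟨⟨?_, ?_, ?_⟩, ?_, ?_⟩
      · simp [a0, b0, c0, d0]
      · simp [al, bl, cl, dl]
      · intro i
        have key : ∀ (s t : Fin (n + 1) → Fin n), (i, s i.castSucc, s i.succ) ∈ edges t ↔
            (s i.castSucc, s i.succ) = (t i.castSucc, t i.succ) := by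
          intro s t
          rw [mem_edges, Prod.mk.injEq]
        unfold Compat
        simp only
        by_cases h12 : (s1 i.castSucc, s1 i.succ) = (s2 i.castSucc, s2 i.succ)
        · left
          refine ⟨h12, ?_⟩
          by_contra h34
          have e3 := (m3 _).1 (mem_edges_self s3 i)
          have hn4 : (i, s3 i.castSucc, s3 i.succ) ∉ edges s4 := by
            rw [key]; exact h34
          rw [m4] at hn4
          have hE1 : (i, s3 i.castSucc, s3 i.succ) ∈ E₁.1 := by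
            by_contra hc; exact hn4 ⟨e3.1, hc⟩
          have hE2 : (i, s3 i.castSucc, s3 i.succ) ∈ edges s2 := (m2 _).2 ⟨a1 hE1, e3.2⟩
          rw [key, ← h12, ← key] at hE2
          exact ((m1 _).1 hE2).2 hE1
        · right
          have e1 := (m1 _).1 (mem_edges_self s1 i)
          have e2 := (m2 _).1 (mem_edges_self s2 i)
          have hn2 : (i, s1 i.castSucc, s1 i.succ) ∉ edges s2 := by
            rw [key]; exact h12
          rw [m2] at hn2
          have hE2 : (i, s1 i.castSucc, s1 i.succ) ∈ E₂.1 := by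
            by_contra hc; exact hn2 ⟨e1.1, hc⟩
          have h14 : (i, s1 i.castSucc, s1 i.succ) ∈ edges s4 := (m4 _).2 ⟨c1 hE2, e1.2⟩
          rw [key] at h14
          refine ⟨h14, ?_⟩
          have hn1 : (i, s2 i.castSucc, s2 i.succ) ∉ edges s1 := by
            rw [key]; exact fun h => h12 h.symm
          rw [m1] at hn1
          have hE1 : (i, s2 i.castSucc, s2 i.succ) ∈ E₁.1 := by
            by_contra hc; exact hn1 ⟨e2.1, hc⟩
          have h23 : (i, s2 i.castSucc, s2 i.succ) ∈ edges s3 := (m3 _).2 ⟨d1 hE1, e2.2⟩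
          rw [key] at h23
          exact h23
      · rw [Finset.disjoint_union_right]
        constructor
        · rw [Finset.disjoint_left]
          intro v hv hv'
          exact ((m1 v).1 hv').2 hv
        · rw [Finset.disjoint_left]
          intro v hv hv'
          exact ((m4 v).1 hv').2 hv
      · intro v hv
        rw [Finset.mem_sdiff] at hv
        have h2 := (m2 v).1 hv.1
        by_contra hc
        exact hv.2 ((m1 v).2 ⟨h2.1, hc⟩)
    · rintro ⟨⟨E₁, E₂, E', E''⟩, ⟨s1, s2, s3, s4⟩⟩ hx ⟨⟨F₁, F₂, F', F''⟩, ⟨t1, t2, t3, t4⟩⟩ hy hxy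
      simp only [A, coe_filter, mem_univ, true_and, Set.mem_ofPred_eq, R, pathSet, mem_filter] at hx hy
      obtain ⟨⟨_, a1, a2⟩, ⟨_, b1, b2⟩, ⟨_, c1, c2⟩, ⟨_, d1, d2⟩⟩ := hx
      obtain ⟨⟨_, a1', a2'⟩, ⟨_, b1', b2'⟩, ⟨_, c1', c2'⟩, ⟨_, d1', d2'⟩⟩ := hy
      simp only [Sigma.mk.injEq, heq_eq_eq] at hxy
      obtain ⟨hs, rfl⟩ := hxy
      have hs' : ∀ i, (s1 i, s2 i, s3 i, s4 i) = (t1 i, t2 i, t3 i, t4 i) := fun i => congrFun hs i
      simp only [Prod.mk.injEq] at hs'
      have h1 : s1 = t1 := funext fun i => (hs' i).1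
      have h2 : s2 = t2 := funext fun i => (hs' i).2.1
      have h3 : s3 = t3 := funext fun i => (hs' i).2.2.1
      have h4 : s4 = t4 := funext fun i => (hs' i).2.2.2
      subst h1 h2 h3 h4
      have hE' : E' = F' := by
        apply Subtype.ext
        rw [← Finset.union_sdiff_of_subset a1, a2, ← a2', Finset.union_sdiff_of_subset a1']
      have hE'' : E'' = F'' := by
        apply Subtype.ext
        rw [← Finset.union_sdiff_of_subset d1, d2, ← d2', Finset.union_sdiff_of_subset d1']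
      subst hE' hE''
      have hE2 : E₂ = F₂ := by
        apply Subtype.ext
        have r1 : E₂.1 = E'.1 \ edges s2 := by
          rw [← b2, Finset.sdiff_sdiff_eq_self b1]
        have r2 : F₂.1 = E'.1 \ edges s2 := by
          rw [← b2', Finset.sdiff_sdiff_eq_self b1']
        rw [r1, r2]
      subst hE2
      rfl
  exact_mod_cast this

end Crest.Agent.R327
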