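import Crest.Agent.R327.RankTrace
import Crest.Agent.R327.Transfer
import Crest.Agent.R327.Walks
import Crest.Agent.R327.Count

set_option autoImplicit false

namespace Crest.Agent.R327

open Finset Crest.ArithCircuit

theorem gw_nonneg {n : ℕ} {lam : ℝ} (h0 : 0 ≤ lam) (h1 : lam ≤ 1)
    (a b : Fin n × Fin n × Fin n × Fin n) : 0 ≤ gw lam a b := by
  unfold gw
  split_ifs
  · exact h0
  · positivity
  · exact mul_nonneg h0 (by linarith)
  · exact le_rfl

/-- T10: the block of the iterated matrix multiplication polynomial has nearly full rank. -/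
theorem rank_imm_lower (K : Type*) [Field K] [CharZero K] (n : ℕ) (hn : 0 < n)
    (typ : Fin n → Bool) (p q : ℕ)
    (hp : 2 * n ≤ p) (hq : 2 * n ≤ q) (hpa : p < (YY typ).card) (hqb : q < ((YY typ)ᶜ).card)
    (ha : 8 * n ^ 2 ≤ (YY typ).card - p) (hb : 8 * n ^ 2 ≤ ((YY typ)ᶜ).card - q)
    (G : ℝ) (hG : 1 ≤ G) (ψ : Fin (n + 1) → ℝ) (hψ : ∀ i, 1 / G ≤ ψ i ∧ ψ i ≤ 1)
    (lam : Fin n → ℝ)
    (hlam : ∀ i, lam i = if typ i then (((YY typ).card : ℝ) - p) / (YY typ).card
            else ((((YY typ)ᶜ).card : ℝ) - q) / ((YY typ)ᶜ).card)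
    (hh : ∀ i, 2 ≤ n * lam i)
    (hψs : ∀ i : Fin n, ψ i.castSucc = (1 - lam i) / lam i * ψ i.succ) :
    (dimLev (YY typ) p q : ℝ) ≤ 64 * (n : ℝ) ^ 2 * Real.exp (2 * (1 + G)) *
      ((blk (YY typ) (imm K n) p q (p + kk typ) (q + ll typ)).rank : ℝ) := by
  classical
  set a := (YY typ).card with hacard
  set b := ((YY typ)ᶜ).card with hbcard
  set F : ℝ := (dimLev (YY typ) p q : ℝ) with hF
  have hpaR : (p : ℝ) < a := by exact_mod_cast hpa
  have hqbR : (q : ℝ) < b := by exact_mod_cast hqb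
  have hp0 : (0 : ℝ) < p := by
    have : 0 < p := by omega
    exact_mod_cast this
  have hq0 : (0 : ℝ) < q := by
    have : 0 < q := by omega
    exact_mod_cast this
  have ha0 : (0 : ℝ) < a := hp0.trans hpaR
  have hb0 : (0 : ℝ) < b := hq0.trans hqbR
  have hnR : (0 : ℝ) < n := by exact_mod_cast hn
  have hl1 : 0 < ((a : ℝ) - p) / a ∧ ((a : ℝ) - p) / a < 1 := by
    refine ⟨div_pos (by linarith) ha0, ?_⟩
    rw [div_lt_one ha0]; linarith
  have hl2 : 0 < ((b : ℝ) - q) / b ∧ ((b : ℝ) - q) / b < 1 := by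
    refine ⟨div_pos (by linarith) hb0, ?_⟩
    rw [div_lt_one hb0]; linarith
  have hlam01 : ∀ i, 0 < lam i ∧ lam i < 1 := by
    intro i
    rw [hlam i]
    split_ifs
    · exact hl1
    · exact hl2
  have hFpos : 0 < F := by
    rw [hF, dimLev]
    have h1 : 0 < a.choose p := Nat.choose_pos hpa.le
    have h2 : 0 < b.choose q := Nat.choose_pos hqb.le
    exact_mod_cast Nat.mul_pos h1 h2
  -- product of densities
  set Λ : ℝ := ∏ i, lam i with hΛ
  have hΛpos : 0 < Λ := Finset.prod_pos fun i _ => (hlam01 i).1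
  have hΛeq : Λ = (((a : ℝ) - p) / a) ^ (kk typ) * (((b : ℝ) - q) / b) ^ (ll typ) := by
    rw [hΛ, ← Finset.prod_filter_mul_prod_filter_not univ (fun i => typ i = true)]
    congr 1
    · rw [kk, ← Finset.prod_const]
      refine Finset.prod_congr rfl fun i hi => ?_
      rw [Finset.mem_filter] at hi
      rw [hlam i, if_pos hi.2]
    · have : ll typ = (univ.filter (fun i => ¬ typ i = true)).card := by
        rw [ll]
        congr 1
        ext i
        simp
      rw [this, ← Finset.prod_const]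
      refine Finset.prod_congr rfl fun i hi => ?_
      rw [Finset.mem_filter] at hi
      rw [hlam i, if_neg hi.2]
  -- the matrix
  set A := pathMat n hn (YY typ) p q (p + kk typ) (q + ll typ) with hA
  set W : ℝ := ∑ E₁, ∑ E₂, (∑ E', (A E' E₁ : ℝ) * (A E' E₂ : ℝ)) ^ 2 with hW
  set N1 : ℝ := ∑ E', ∑ E, (A E' E : ℝ) ^ 2 with hN1
  have hrank : N1 ^ 2 ≤
      ((blk (YY typ) (imm K n) p q (p + kk typ) (q + ll typ)).rank : ℝ) * W := by
    rw [blk_imm K n hn (YY typ) p q (p + kk typ) (q + ll typ)]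
    exact sq_le_rank_mul (K := K) A
  -- lower bound for N1
  have hkn : kk typ ≤ n := by
    have := kk_add_ll typ; omega
  have hln : ll typ ≤ n := by
    have := kk_add_ll typ; omega
  have hk2 : 2 * (kk typ) ^ 2 ≤ a - p := by
    have h1 : (kk typ) ^ 2 ≤ n ^ 2 := Nat.pow_le_pow_left hkn 2
    omega
  have hl2' : 2 * (ll typ) ^ 2 ≤ b - q := by
    have h1 : (ll typ) ^ 2 ≤ n ^ 2 := Nat.pow_le_pow_left hln 2
    omega
  have c1 := choose_ge_half a p (kk typ) hpa hk2
  have c2 := choose_ge_half b q (ll typ) hqb hl2'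
  have hN1low : (n : ℝ) ^ (n - 1) * (F * Λ / 4) ≤ N1 := by
    have h1 := sum_pathMat_sq_ge n hn typ p q
    refine le_trans ?_ h1
    push_cast
    refine mul_le_mul_of_nonneg_left ?_ (by positivity)
    have h2 := mul_le_mul c1 c2 (by
      have := hl2.1
      positivity) (by positivity)
    refine le_trans (le_of_eq ?_) h2
    rw [hΛeq, hF, dimLev]
    push_cast
    ring
  -- upper bound for W
  have hWup : W ≤ 4 * F * ((∏ i, lam i ^ 2) * (n : ℝ) ^ (2 * n) * Real.exp (2 * (1 + G))) := by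
    have h1 := sum_walk_le n hn typ p q (p + kk typ) (q + ll typ)
    refine h1.trans ?_
    set z : Fin n × Fin n × Fin n × Fin n := (⟨0, hn⟩, ⟨0, hn⟩, ⟨0, hn⟩, ⟨0, hn⟩) with hz
    have h2 := transfer_bound n hn z ⟨rfl, rfl, rfl⟩ lam hlam01 G hG hh ψ hψ hψs
    have h3 : ∑ s ∈ (univ : Finset (Fin (n + 1) → Fin n × Fin n × Fin n × Fin n)).filter
          (fun s => s 0 = z ∧ s (Fin.last n) = z ∧ ∀ i, Compat s i),
        (cnt (YY typ) p q (edges (fun i => (s i).1) ∪ edges (fun i => (s i).2.2.2))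
          (edges (fun i => (s i).2.1) \ edges (fun i => (s i).1)) : ℝ) ≤
        ∑ s ∈ (univ : Finset (Fin (n + 1) → Fin n × Fin n × Fin n × Fin n)).filter
          (fun s => s 0 = z ∧ s (Fin.last n) = z ∧ ∀ i, Compat s i),
          4 * F * ∏ i : Fin n, gw (lam i) (s i.castSucc) (s i.succ) := by
      refine Finset.sum_le_sum fun s hs => ?_
      rw [Finset.mem_filter] at hs
      have h4 := cnt_le_prod n typ p q hp hq hpa hqb ha hb s hs.2.2.2
      simp only [← hacard, ← hbcard, ← hlam] at h4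
      exact h4
    refine h3.trans ?_
    rw [← Finset.mul_sum]
    refine mul_le_mul_of_nonneg_left ?_ (by positivity)
    refine le_trans ?_ h2
    refine Finset.sum_le_sum_of_subset_of_nonneg ?_ ?_
    · intro s hs
      rw [Finset.mem_filter] at hs ⊢
      exact ⟨hs.1, hs.2.1, hs.2.2.1⟩
    · intro s _ _
      exact Finset.prod_nonneg fun i _ => gw_nonneg (hlam01 i).1.le (hlam01 i).2.le _ _
  -- conclusion
  set R : ℝ := ((blk (YY typ) (imm K n) p q (p + kk typ) (q + ll typ)).rank : ℝ) with hR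
  have hR0 : 0 ≤ R := by positivity
  have hΛ2 : ∏ i, lam i ^ 2 = Λ ^ 2 := by rw [hΛ, Finset.prod_pow]
  rw [hΛ2] at hWup
  set E := Real.exp (2 * (1 + G)) with hE
  have hEpos : 0 < E := Real.exp_pos _
  have hm : (n : ℝ) ^ (2 * n) = (n : ℝ) ^ (n - 1) * (n : ℝ) ^ (n - 1) * (n : ℝ) ^ 2 := by
    rw [← pow_add, ← pow_add]
    congr 1
    omega
  have hmpos : 0 < (n : ℝ) ^ (n - 1) := by positivity
  have hfin : ((n : ℝ) ^ (n - 1) * (F * Λ / 4)) ^ 2 ≤
      R * (4 * F * (Λ ^ 2 * ((n : ℝ) ^ (n - 1) * (n : ℝ) ^ (n - 1) * (n : ℝ) ^ 2) * E)) := by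
    calc ((n : ℝ) ^ (n - 1) * (F * Λ / 4)) ^ 2 ≤ N1 ^ 2 :=
          pow_le_pow_left₀ (by positivity) hN1low 2
      _ ≤ R * W := hrank
      _ ≤ _ := by
          rw [← hm]
          exact mul_le_mul_of_nonneg_left hWup hR0
  set M : ℝ := (n : ℝ) ^ (n - 1) with hM
  have hc : 0 < M ^ 2 * F * Λ ^ 2 / 16 := by positivity
  have : (M ^ 2 * F * Λ ^ 2 / 16) * F ≤ (M ^ 2 * F * Λ ^ 2 / 16) * (64 * (n : ℝ) ^ 2 * E * R) := by
    calc (M ^ 2 * F * Λ ^ 2 / 16) * F = (M * (F * Λ / 4)) ^ 2 := by ring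
      _ ≤ _ := hfin
      _ = _ := by ring
  exact le_of_mul_le_mul_left this hc

end Crest.Agent.R327
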