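import Mathlib

set_option autoImplicit false

namespace Crest.Agent.R327

open Finset

/-- a sum of distinct powers of `r ≤ 1/4` is at most `4/3`. -/
theorem sum_pow_le_of_injOn (r : ℝ) (hr0 : 0 ≤ r) (hr : r ≤ 1 / 4) (S : Finset ℕ) (f : ℕ → ℕ)
    (hf : Set.InjOn f (S : Set ℕ)) : ∑ κ ∈ S, r ^ f κ ≤ 4 / 3 := by
  classical
  have h1 : ∑ κ ∈ S, r ^ f κ = ∑ j ∈ S.image f, r ^ j := by
    rw [Finset.sum_image hf]
  rw [h1]
  have hlt : r < 1 := by linarith
  have h2 : ∑ j ∈ S.image f, r ^ j ≤ ∑' j : ℕ, r ^ j :=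
    (summable_geometric_of_lt_one hr0 hlt).sum_le_tsum _ (fun i _ => pow_nonneg hr0 i)
  rw [tsum_geometric_of_lt_one hr0 hlt] at h2
  refine h2.trans ?_
  rw [inv_le_comm₀ (by linarith) (by norm_num)]
  linarith

theorem sum_general (m : ℤ) (x δ : ℝ) (d : ℕ) (G : ℝ) (hG : 16 ≤ G)
    (h1 : ∀ κ : ℕ, (κ : ℤ) ≤ m → ((m - κ : ℤ) : ℝ) + δ ≤ |(κ : ℝ) - x|)
    (h2 : ∀ κ : ℕ, m < (κ : ℤ) → ((κ - m - 1 : ℤ) : ℝ) + δ ≤ |(κ : ℝ) - x|) :
    ∑ κ ∈ range (d + 1), G ^ (-(|(κ : ℝ) - x|) / 2) ≤ 4 * G ^ (-δ / 2) := by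
  classical
  set r : ℝ := G ^ (-(1 : ℝ) / 2) with hrdef
  have hG0 : 0 < G := by linarith
  have hG1 : 1 ≤ G := by linarith
  have hr0 : 0 ≤ r := by positivity
  have hr : r ≤ 1 / 4 := by
    have : r ≤ (16 : ℝ) ^ (-(1 : ℝ) / 2) := by
      apply Real.rpow_le_rpow_of_nonpos (by norm_num) hG (by norm_num)
    refine this.trans ?_
    have : (16 : ℝ) = 4 ^ (2 : ℝ) := by norm_num
    rw [this, ← Real.rpow_mul (by norm_num)]
    norm_num
  have key : ∀ (e : ℕ) (y : ℝ), (e : ℝ) + δ ≤ y → G ^ (-y / 2) ≤ r ^ e * G ^ (-δ / 2) := by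
    intro e y hy
    have : r ^ e * G ^ (-δ / 2) = G ^ (-((e : ℝ) + δ) / 2) := by
      rw [hrdef, ← Real.rpow_natCast, ← Real.rpow_mul hG0.le, ← Real.rpow_add hG0]
      congr 1
      ring
    rw [this]
    apply Real.rpow_le_rpow_of_exponent_le hG1
    linarith
  rw [← Finset.sum_filter_add_sum_filter_not (range (d + 1)) (fun κ : ℕ => (κ : ℤ) ≤ m)]
  have A : ∑ κ ∈ (range (d + 1)).filter (fun κ : ℕ => (κ : ℤ) ≤ m), G ^ (-(|(κ : ℝ) - x|) / 2) ≤
      4 / 3 * G ^ (-δ / 2) := by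
    calc ∑ κ ∈ (range (d + 1)).filter (fun κ : ℕ => (κ : ℤ) ≤ m), G ^ (-(|(κ : ℝ) - x|) / 2)
        ≤ ∑ κ ∈ (range (d + 1)).filter (fun κ : ℕ => (κ : ℤ) ≤ m),
            r ^ (m - κ).toNat * G ^ (-δ / 2) := by
          apply Finset.sum_le_sum
          intro κ hκ
          have hκ' := (Finset.mem_filter.1 hκ).2
          apply key
          have := h1 κ hκ'
          have e : (((m - κ).toNat : ℕ) : ℝ) = ((m - κ : ℤ) : ℝ) := by
            have : (((m - κ).toNat : ℕ) : ℤ) = m - κ := Int.toNat_of_nonneg (by omega)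
            exact_mod_cast this
          rw [e]
          exact this
      _ = (∑ κ ∈ (range (d + 1)).filter (fun κ : ℕ => (κ : ℤ) ≤ m),
            r ^ (m - κ).toNat) * G ^ (-δ / 2) := by rw [Finset.sum_mul]
      _ ≤ _ := by
          apply mul_le_mul_of_nonneg_right _ (by positivity)
          apply sum_pow_le_of_injOn r hr0 hr
          intro a ha b hb hab
          have ha' := (Finset.mem_filter.1 ha).2
          have hb' := (Finset.mem_filter.1 hb).2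
          simp only at hab
          omega
  have B : ∑ κ ∈ (range (d + 1)).filter (fun κ : ℕ => ¬ (κ : ℤ) ≤ m), G ^ (-(|(κ : ℝ) - x|) / 2) ≤
      4 / 3 * G ^ (-δ / 2) := by
    calc ∑ κ ∈ (range (d + 1)).filter (fun κ : ℕ => ¬ (κ : ℤ) ≤ m), G ^ (-(|(κ : ℝ) - x|) / 2)
        ≤ ∑ κ ∈ (range (d + 1)).filter (fun κ : ℕ => ¬ (κ : ℤ) ≤ m),
            r ^ (κ - m - 1).toNat * G ^ (-δ / 2) := by
          apply Finset.sum_le_sum
          intro κ hκ
          have hκ' := (Finset.mem_filter.1 hκ).2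
          apply key
          have := h2 κ (by omega)
          have e : (((κ - m - 1).toNat : ℕ) : ℝ) = ((κ - m - 1 : ℤ) : ℝ) := by
            have : (((κ - m - 1).toNat : ℕ) : ℤ) = κ - m - 1 := Int.toNat_of_nonneg (by omega)
            exact_mod_cast this
          rw [e]
          exact this
      _ = (∑ κ ∈ (range (d + 1)).filter (fun κ : ℕ => ¬ (κ : ℤ) ≤ m),
            r ^ (κ - m - 1).toNat) * G ^ (-δ / 2) := by rw [Finset.sum_mul]
      _ ≤ _ := by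
          apply mul_le_mul_of_nonneg_right _ (by positivity)
          apply sum_pow_le_of_injOn r hr0 hr
          intro a ha b hb hab
          have ha' := (Finset.mem_filter.1 ha).2
          have hb' := (Finset.mem_filter.1 hb).2
          simp only at hab
          omega
  have hpos : 0 ≤ G ^ (-δ / 2) := by positivity
  linarith

/-- T3a: for `1 ≤ d ≤ t` the point `α d`, `α = 1/2 + 1/(4t)`, is at distance at least
`d/(4t)` from every integer, hence the geometric-type sum is small. -/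
theorem sum_le_of_le (t : ℕ) (ht : 1 ≤ t) (d : ℕ) (hdt : d ≤ t) (G : ℝ) (hG : 16 ≤ G) :
    ∑ κ ∈ range (d + 1), G ^ (-(|(κ : ℝ) - (1 / 2 + 1 / (4 * t)) * d|) / 2) ≤
      4 * G ^ (-(d : ℝ) / (8 * t)) := by
  have htr : (1 : ℝ) ≤ t := by exact_mod_cast ht
  have hdr : (d : ℝ) ≤ t := by exact_mod_cast hdt
  have hd0 : (0 : ℝ) ≤ d := by positivity
  set δ : ℝ := d / (4 * t) with hδdef
  have hδ0 : 0 ≤ δ := by positivity
  have hδ1 : δ ≤ 1 / 4 := by
    rw [hδdef, div_le_div_iff₀ (by positivity) (by norm_num)]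
    linarith
  have hx : (1 / 2 + 1 / (4 * (t : ℝ))) * d = d / 2 + δ := by
    rw [hδdef]; field_simp
  have hexp : -(d : ℝ) / (8 * t) = -δ / 2 := by
    rw [hδdef]; field_simp; ring
  rw [hexp]
  obtain ⟨m, e, hm, he⟩ : ∃ m e : ℕ, m * 2 + e = d ∧ e ≤ 1 := ⟨d / 2, d % 2, by omega, by omega⟩
  have hdm' : (m : ℝ) * 2 + (e : ℝ) = d := by exact_mod_cast hm
  have hmod0 : (0 : ℝ) ≤ (e : ℝ) := by positivity
  have hmod1 : (e : ℝ) ≤ 1 := by exact_mod_cast he
  apply sum_general (m : ℤ) _ δ d G hG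
  · intro κ hκ
    rw [hx]
    have hk : (κ : ℝ) ≤ (m : ℝ) := by exact_mod_cast hκ
    rw [abs_of_nonpos (by linarith)]
    push_cast
    linarith
  · intro κ hκ
    rw [hx]
    have hk' : m + 1 ≤ κ := by omega
    have hk : (m : ℝ) + 1 ≤ κ := by exact_mod_cast hk'
    rw [abs_of_nonneg (by linarith)]
    push_cast
    linarith

/-- T3b: the sum is always at most `4` (any real centre `x`). -/
theorem sum_le_four (x : ℝ) (d : ℕ) (G : ℝ) (hG : 16 ≤ G) :
    ∑ κ ∈ range (d + 1), G ^ (-(|(κ : ℝ) - x|) / 2) ≤ 4 := by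
  have := sum_general ⌊x⌋ x 0 d G hG ?_ ?_
  · simpa using this
  · intro κ hκ
    have h1 : ((κ : ℤ) : ℝ) ≤ (⌊x⌋ : ℝ) := by exact_mod_cast hκ
    have h2 := Int.floor_le x
    have h1' : (κ : ℝ) ≤ (⌊x⌋ : ℝ) := by simpa using h1
    rw [abs_of_nonpos (by linarith)]
    push_cast
    linarith
  · intro κ hκ
    have h1 : ⌊x⌋ + 1 ≤ (κ : ℤ) := by omega
    have h1' : ((⌊x⌋ : ℤ) : ℝ) + 1 ≤ (κ : ℝ) := by exact_mod_cast h1
    have h2 := Int.lt_floor_add_one x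
    rw [abs_of_nonneg (by linarith)]
    push_cast
    linarith

/-- T3c: linear forms. -/
theorem sum_linear (t : ℕ) (ht : 1 ≤ t) (G : ℝ) (hG : 1 ≤ G) :
    ∑ κ ∈ range (1 + 1), G ^ (-(|(κ : ℝ) - (1 / 2 + 1 / (4 * t)) * (1 : ℕ)|) / 2) ≤
      2 * G ^ (-(1 : ℝ) / 8) := by
  have htr : (1 : ℝ) ≤ t := by exact_mod_cast ht
  have h0 : (0 : ℝ) < 1 / (4 * t) := by positivity
  have h1 : (1 : ℝ) / (4 * t) ≤ 1 / 4 := by
    rw [div_le_div_iff₀ (by positivity) (by norm_num)]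
    linarith
  rw [Finset.sum_range_succ, Finset.sum_range_one]
  have A : G ^ (-(|((0 : ℕ) : ℝ) - (1 / 2 + 1 / (4 * t)) * (1 : ℕ)|) / 2) ≤ G ^ (-(1 : ℝ) / 8) := by
    apply Real.rpow_le_rpow_of_exponent_le hG
    push_cast
    rw [abs_of_nonpos (by linarith)]
    linarith
  have B : G ^ (-(|((1 : ℕ) : ℝ) - (1 / 2 + 1 / (4 * t)) * (1 : ℕ)|) / 2) ≤ G ^ (-(1 : ℝ) / 8) := by
    apply Real.rpow_le_rpow_of_exponent_le hG
    push_cast
    rw [abs_of_nonneg (by linarith)]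
    linarith
  linarith

end Crest.Agent.R327
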