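import Crest.Agent.R327.Defs

set_option autoImplicit false

namespace Crest.Agent.R327

open Finset

/-! ### Beatty word -/

/-- the Beatty function -/
noncomputable def bty (α : ℝ) (i : ℕ) : ℕ := ⌊α * i⌋₊

theorem bty_le (α : ℝ) (hα : 0 ≤ α) (i : ℕ) : (bty α i : ℝ) ≤ α * i :=
  Nat.floor_le (by positivity)

theorem lt_bty (α : ℝ) (i : ℕ) : α * i < bty α i + 1 := Nat.lt_floor_add_one _

theorem bty_zero (α : ℝ) : bty α 0 = 0 := by simp [bty]

theorem bty_succ (α : ℝ) (h0 : 0 ≤ α) (h1 : α ≤ 1) (i : ℕ) :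
    bty α (i + 1) = bty α i ∨ bty α (i + 1) = bty α i + 1 := by
  have a1 := bty_le α h0 i
  have a2 := lt_bty α i
  have b1 := bty_le α h0 (i + 1)
  have b2 := lt_bty α (i + 1)
  push_cast at b1 b2
  have l1 : bty α i ≤ bty α (i + 1) := by
    have : (bty α i : ℝ) < bty α (i + 1) + 1 := by nlinarith
    have : bty α i < bty α (i + 1) + 1 := by exact_mod_cast this
    omega
  have l2 : bty α (i + 1) ≤ bty α i + 1 := by
    have : (bty α (i + 1) : ℝ) < bty α i + 1 + 1 := by nlinarith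
    have : bty α (i + 1) < bty α i + 1 + 1 := by exact_mod_cast this
    omega
  omega

theorem bty_mono (α : ℝ) (h0 : 0 ≤ α) (h1 : α ≤ 1) : Monotone (bty α) := by
  apply monotone_nat_of_le_succ
  intro i
  rcases bty_succ α h0 h1 i with h | h <;> omega

theorem bty_le_self (α : ℝ) (h0 : 0 ≤ α) (h1 : α ≤ 1) (i : ℕ) : bty α i ≤ i := by
  have a1 := bty_le α h0 i
  have : (bty α i : ℝ) ≤ i := by
    have hi : (0 : ℝ) ≤ i := by positivity
    nlinarith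
  exact_mod_cast this

theorem compl_mono (α : ℝ) (h0 : 0 ≤ α) (h1 : α ≤ 1) : Monotone (fun i => i - bty α i) := by
  apply monotone_nat_of_le_succ
  intro i
  have := bty_le_self α h0 h1 i
  rcases bty_succ α h0 h1 i with h | h <;> simp only [h] <;> omega

/-- The types. -/
noncomputable def btyp (α : ℝ) (n : ℕ) : Fin n → Bool := fun i =>
  decide (bty α (i + 1) = bty α i + 1)

theorem kk_btyp (α : ℝ) (h0 : 0 ≤ α) (h1 : α ≤ 1) (n : ℕ) : kk (btyp α n) = bty α n := by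
  have h : ∀ m : ℕ, ((range m).filter (fun i => bty α (i + 1) = bty α i + 1)).card = bty α m := by
    intro m
    induction m with
    | zero => simp [bty_zero]
    | succ m ih =>
      rw [Finset.range_add_one, Finset.filter_insert]
      rcases bty_succ α h0 h1 m with h | h
      · rw [if_neg (by omega), ih, h]
      · rw [if_pos h, Finset.card_insert_of_notMem (by simp), ih, h]
  rw [← h n]
  unfold kk btyp
  rw [Finset.card_filter, Finset.card_filter, ← Fin.sum_univ_eq_sum_range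
    (fun i => if bty α (i + 1) = bty α i + 1 then 1 else 0)]
  simp

theorem kk_add_ll_params {n : ℕ} (typ : Fin n → Bool) : kk typ + ll typ = n := by
  unfold kk ll
  have := Finset.card_filter_add_card_filter_not (s := (univ : Finset (Fin n)))
    (fun i => typ i = true)
  simp only [Bool.not_eq_true, Finset.card_univ, Fintype.card_fin] at this
  exact this

theorem card_YY_params {n : ℕ} (typ : Fin n → Bool) : (YY typ).card = kk typ * n ^ 2 := by
  have : YY typ = (univ.filter (fun i : Fin n => typ i = true)) ×ˢ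
      (univ : Finset (Fin n × Fin n)) := by
    ext v
    simp [YY]
  rw [this, Finset.card_product, Finset.card_univ, Fintype.card_prod, Fintype.card_fin, ← pow_two]
  rfl

theorem card_YY_compl_params {n : ℕ} (typ : Fin n → Bool) : ((YY typ)ᶜ).card = ll typ * n ^ 2 := by
  have : (YY typ)ᶜ = (univ.filter (fun i : Fin n => typ i = false)) ×ˢ
      (univ : Finset (Fin n × Fin n)) := by
    ext v
    simp [YY]
  rw [this, Finset.card_product, Finset.card_univ, Fintype.card_prod, Fintype.card_fin, ← pow_two]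
  rfl

/-! ### binomial ratios -/

theorem choose_ratio (a p : ℕ) (w : ℝ) (hw : 0 ≤ w) (hp : p ≤ a)
    (h : ((a - p : ℕ) : ℝ) ≤ w * p) (κ : ℕ) :
    ((a.choose (p + κ) : ℕ) : ℝ) ≤ (a.choose p : ℕ) * w ^ κ := by
  induction κ with
  | zero => simp
  | succ κ ih =>
    have e := Nat.choose_succ_right_eq a (p + κ)
    have e' : ((a.choose (p + κ + 1) : ℕ) : ℝ) * (p + κ + 1) =
        (a.choose (p + κ) : ℕ) * ((a - (p + κ) : ℕ) : ℝ) := by exact_mod_cast e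
    have h2 : ((a - (p + κ) : ℕ) : ℝ) ≤ w * (p + κ + 1) := by
      have : ((a - (p + κ) : ℕ) : ℝ) ≤ ((a - p : ℕ) : ℝ) := by
        exact_mod_cast (by omega : a - (p + κ) ≤ a - p)
      have hk : (0 : ℝ) ≤ w * (κ + 1) := by positivity
      nlinarith
    have hpos : (0 : ℝ) < (p : ℝ) + κ + 1 := by positivity
    have hC : (0 : ℝ) ≤ (a.choose (p + κ) : ℕ) := by positivity
    have h3 : ((a.choose (p + κ + 1) : ℕ) : ℝ) * (p + κ + 1) ≤
        ((a.choose (p + κ) : ℕ) * w) * (p + κ + 1) := by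
      rw [e']
      calc ((a.choose (p + κ) : ℕ) : ℝ) * ((a - (p + κ) : ℕ) : ℝ)
          ≤ (a.choose (p + κ) : ℕ) * (w * (p + κ + 1)) := mul_le_mul_of_nonneg_left h2 hC
        _ = _ := by ring
    have h4 := le_of_mul_le_mul_right h3 hpos
    calc ((a.choose (p + (κ + 1)) : ℕ) : ℝ) = ((a.choose (p + κ + 1) : ℕ) : ℝ) := by
          rw [← add_assoc]
      _ ≤ (a.choose (p + κ) : ℕ) * w := h4
      _ ≤ ((a.choose p : ℕ) * w ^ κ) * w := mul_le_mul_of_nonneg_right ih hw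
      _ = _ := by ring

/-- choice of the level in the `Y` part -/
theorem level_Y (a n : ℕ) (u X : ℝ) (hn : 0 < n) (hu : 1 ≤ u) (hX : X = a / (1 + u))
    (hX3 : 3 * (n : ℝ) ≤ X) :
    ∃ p : ℕ, p < a ∧ X - 1 ≤ ((a - p : ℕ) : ℝ) ∧ ((a - p : ℕ) : ℝ) ≤ X ∧ X ≤ p ∧
      u * ((a - p : ℕ) : ℝ) ≤ p ∧ (p : ℝ) ≤ (u * (1 + 1 / n)) * ((a - p : ℕ) : ℝ) := by
  have hn' : (1 : ℝ) ≤ n := by exact_mod_cast hn
  have hXpos : 0 < X := by linarith
  have haX : (a : ℝ) = (1 + u) * X := by rw [hX]; field_simp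
  set f : ℕ := ⌊X⌋₊ with hf
  have f1 : (f : ℝ) ≤ X := Nat.floor_le hXpos.le
  have f2 : X < f + 1 := Nat.lt_floor_add_one X
  have hXa : X ≤ a := by rw [haX]; nlinarith
  have hfa : f ≤ a := by
    have : (f : ℝ) ≤ a := f1.trans hXa
    exact_mod_cast this
  have hf1 : 1 ≤ f := by
    have : (0 : ℝ) < f := by linarith
    have : 0 < f := by exact_mod_cast this
    omega
  refine ⟨a - f, by omega, ?_, ?_, ?_, ?_, ?_⟩
  · rw [show a - (a - f) = f by omega]; linarith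
  · rw [show a - (a - f) = f by omega]; exact f1
  · rw [Nat.cast_sub hfa, haX]; nlinarith
  · rw [show a - (a - f) = f by omega, Nat.cast_sub hfa, haX]; nlinarith
  · rw [show a - (a - f) = f by omega, Nat.cast_sub hfa, haX]
    -- (1+u)X - f ≤ u (1+1/n) f
    have h1 : (1 + u) * X - f ≤ u * X + 1 := by linarith
    have h2 : u * (1 + 1 / n) * (X - 1) ≤ u * (1 + 1 / n) * f := by
      apply mul_le_mul_of_nonneg_left (by linarith) (by positivity)
    refine h1.trans (le_trans ?_ h2)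
    have h3 : (1 : ℝ) / n ≤ 1 := by rw [div_le_one (by positivity)]; exact hn'
    have h4 : 3 ≤ (1 : ℝ) / n * X := by
      rw [one_div, inv_mul_eq_div, le_div_iff₀ (by positivity)]; exact hX3
    have h5 : u * 3 ≤ u * ((1 : ℝ) / n * X) := mul_le_mul_of_nonneg_left h4 (by linarith)
    have h6 : u * (1 / (n : ℝ)) ≤ u * 1 := mul_le_mul_of_nonneg_left h3 (by linarith)
    nlinarith

/-- choice of the level in the `Z` part -/
theorem level_Z (b n : ℕ) (v X : ℝ) (hn : 0 < n) (hv : 1 ≤ v) (hX : X = b / (1 + v))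
    (hX3 : 3 * (n : ℝ) ≤ X) :
    ∃ q : ℕ, q < b ∧ X ≤ q ∧ X - 1 ≤ ((b - q : ℕ) : ℝ) ∧
      v * X - 1 ≤ ((b - q : ℕ) : ℝ) ∧
      ((b - q : ℕ) : ℝ) ≤ v * q ∧ v * (q : ℝ) ≤ (1 + 1 / n) * ((b - q : ℕ) : ℝ) := by
  have hn' : (1 : ℝ) ≤ n := by exact_mod_cast hn
  have hXpos : 0 < X := by linarith
  have hbX : (b : ℝ) = (1 + v) * X := by rw [hX]; field_simp
  set q : ℕ := ⌈X⌉₊ with hq
  have q1 : X ≤ q := Nat.le_ceil X
  have q2 : (q : ℝ) < X + 1 := Nat.ceil_lt_add_one hXpos.le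
  have hqb' : (q : ℝ) < b := by rw [hbX]; nlinarith
  have hqb : q < b := by exact_mod_cast hqb'
  refine ⟨q, hqb, q1, ?_, ?_, ?_, ?_⟩
  · rw [Nat.cast_sub hqb.le, hbX]; nlinarith
  · rw [Nat.cast_sub hqb.le, hbX]; nlinarith
  · rw [Nat.cast_sub hqb.le, hbX]; nlinarith
  · rw [Nat.cast_sub hqb.le, hbX]
    have h1 : v * (q : ℝ) ≤ v * (X + 1) := mul_le_mul_of_nonneg_left q2.le (by linarith)
    have h2 : (1 + 1 / (n : ℝ)) * (v * X - 1) ≤ (1 + 1 / n) * ((1 + v) * X - q) := by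
      apply mul_le_mul_of_nonneg_left (by linarith) (by positivity)
    refine h1.trans (le_trans ?_ h2)
    have h3 : (1 : ℝ) / n ≤ 1 := by rw [div_le_one (by positivity)]; exact hn'
    have h4 : 3 ≤ (1 : ℝ) / n * X := by
      rw [one_div, inv_mul_eq_div, le_div_iff₀ (by positivity)]; exact hX3
    have h5 : v * 3 ≤ v * ((1 : ℝ) / n * X) := mul_le_mul_of_nonneg_left h4 (by linarith)
    nlinarith

theorem one_add_inv_pow_le (n m : ℕ) (hn : 0 < n) (hm : m ≤ n) :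
    (1 + 1 / (n : ℝ)) ^ m ≤ 3 := by
  have hn' : (0 : ℝ) < n := by exact_mod_cast hn
  have h1 : (1 + 1 / (n : ℝ)) ^ m ≤ (1 + 1 / (n : ℝ)) ^ n := by
    apply pow_le_pow_right₀ _ hm
    have : 0 < 1 / (n : ℝ) := by positivity
    linarith
  have h2 : (1 + 1 / (n : ℝ)) ^ n ≤ Real.exp (1 / (n : ℝ)) ^ n := by
    apply pow_le_pow_left₀ (by positivity)
    have := Real.add_one_le_exp (1 / (n : ℝ))
    linarith
  have h3 : Real.exp (1 / (n : ℝ)) ^ n = Real.exp 1 := by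
    rw [← Real.exp_nat_mul]
    congr 1
    field_simp
  have h4 : Real.exp 1 ≤ 3 := Real.exp_one_lt_three.le
  linarith

/-! ### small numerical facts (kept separate for speed) -/

theorem num_sqrt (n : ℝ) (hn : 10000 ≤ n) : Real.sqrt n ≤ n / 100 := by
  have h2 : (100 : ℝ) ≤ Real.sqrt n := by
    apply Real.le_sqrt_of_sq_le; linarith
  have h3 : Real.sqrt n * Real.sqrt n = n := Real.mul_self_sqrt (by linarith)
  nlinarith

theorem num_kk (n α k : ℝ) (hn : 10000 ≤ n) (hα : 1 / 2 ≤ α) (h : α * n < k + 1) : n / 3 ≤ k := by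
  have := mul_le_mul_of_nonneg_right hα (by linarith : (0 : ℝ) ≤ n)
  linarith

theorem num_ll (n α k l : ℝ) (hn : 10000 ≤ n) (hα : α ≤ 3 / 4) (h : k ≤ α * n) (hkl : k + l = n) :
    n / 4 ≤ l := by
  have := mul_le_mul_of_nonneg_right hα (by linarith : (0 : ℝ) ≤ n)
  linarith

theorem num_X (n a k u : ℝ) (_hn : 10000 ≤ n) (hu : 1 ≤ u) (hk : n / 4 ≤ k) (hu2 : 1 + u ≤ n / 64)
    (ha : a = k * n ^ 2) : 16 * n ^ 2 ≤ a / (1 + u) := by
  rw [le_div_iff₀ (by linarith), ha]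
  have h3 : 16 * (1 + u) ≤ k := by linarith
  have := mul_le_mul_of_nonneg_right h3 (sq_nonneg n)
  linarith

theorem num_3n (n : ℝ) (hn : 10000 ≤ n) : 3 * n ≤ 16 * n ^ 2 := by nlinarith

theorem num_8 (n X x : ℝ) (hn : 10000 ≤ n) (hX : 16 * n ^ 2 ≤ X) (h : X - 1 ≤ x) :
    8 * n ^ 2 ≤ x := by nlinarith

theorem num_2 (n X x : ℝ) (hn : 10000 ≤ n) (hX : 16 * n ^ 2 ≤ X) (h : X ≤ x) :
    2 * n ≤ x := by nlinarith

theorem num_lam (n a u x : ℝ) (hn : 10000 ≤ n) (hu : 1 ≤ u) (hu2 : 1 + u ≤ n / 64)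
    (hX : 16 * n ^ 2 ≤ a / (1 + u)) (h : a / (1 + u) - 1 ≤ x) : 2 * a ≤ n * x := by
  have h1 : a / (1 + u) * (1 + u) = a := by
    have : (1 : ℝ) + u ≠ 0 := by linarith
    field_simp
  set X := a / (1 + u) with hXd
  have hX0 : 2 ≤ X := by nlinarith
  have h4 : a ≤ X * (n / 64) := by
    calc a = X * (1 + u) := h1.symm
      _ ≤ _ := mul_le_mul_of_nonneg_left hu2 (by linarith)
  have h5 : X / 2 ≤ x := by linarith
  have h6 : n * (X / 2) ≤ n * x := mul_le_mul_of_nonneg_left h5 (by linarith)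
  have h7 : 0 ≤ n * X := mul_nonneg (by linarith) (by linarith)
  linarith

theorem num_G (G : ℝ) (hG : 0 < G) : 1 / (64 * G) ≤ G⁻¹ / 3 := by
  rw [one_div, mul_inv, div_eq_mul_inv]
  have : 0 < G⁻¹ := by positivity
  linarith

/-- T11: choice of layer types and levels. `t = ⌊√n⌋`, `α = 1/2 + 1/(4t)`, `G = n^(1/4)`. -/
theorem exists_params : ∃ n₀ : ℕ, ∀ n ≥ n₀, ∃ (typ : Fin n → Bool) (p q : ℕ)
    (ψ : Fin (n + 1) → ℝ) (lam : Fin n → ℝ),
    let t : ℕ := Nat.sqrt n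
    let α : ℝ := 1 / 2 + 1 / (4 * t)
    let G : ℝ := (n : ℝ) ^ (1 / 4 : ℝ)
    let a : ℕ := (YY typ).card
    let b : ℕ := ((YY typ)ᶜ).card
    (∀ κ : ℕ, ((a.choose (p + κ) : ℕ) : ℝ) ≤ (a.choose p : ℕ) * (G ^ (1 - α))⁻¹ ^ κ) ∧
    (∀ η : ℕ, ((b.choose (q + η) : ℕ) : ℝ) ≤ (b.choose q : ℕ) * (G ^ α) ^ η) ∧
    (-1 ≤ (kk typ : ℝ) - α * n) ∧ kk typ + ll typ = n ∧
    2 * n ≤ p ∧ 2 * n ≤ q ∧ p < a ∧ q < b ∧ 8 * n ^ 2 ≤ a - p ∧ 8 * n ^ 2 ≤ b - q ∧
    (∀ i, 1 / (64 * G) ≤ ψ i ∧ ψ i ≤ 1) ∧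
    (∀ i, lam i = if typ i then ((a : ℝ) - p) / a else ((b : ℝ) - q) / b) ∧
    (∀ i, 2 ≤ n * lam i) ∧
    (∀ i : Fin n, ψ i.castSucc = (1 - lam i) / lam i * ψ i.succ) := by
  refine ⟨10000, fun n hn => ?_⟩
  have hnR : (10000 : ℝ) ≤ n := by exact_mod_cast hn
  have hn0 : 0 < n := by omega
  have hnpos : (0 : ℝ) < n := by linarith
  obtain ⟨t, ht⟩ : ∃ t : ℕ, t = Nat.sqrt n := ⟨_, rfl⟩
  have ht1 : 1 ≤ t := by
    rw [ht]; exact Nat.le_sqrt'.2 (by omega)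
  have htR : (1 : ℝ) ≤ t := by exact_mod_cast ht1
  obtain ⟨α, hα⟩ : ∃ α : ℝ, α = 1 / 2 + 1 / (4 * t) := ⟨_, rfl⟩
  have hα1 : 1 / 2 ≤ α := by
    rw [hα]; have : (0 : ℝ) < 1 / (4 * t) := by positivity
    linarith
  have hα2 : α ≤ 3 / 4 := by
    rw [hα]
    have : (1 : ℝ) / (4 * t) ≤ 1 / 4 := by
      rw [div_le_div_iff₀ (by positivity) (by norm_num)]; linarith
    linarith
  have hα0 : 0 ≤ α := by linarith
  have hα1' : α ≤ 1 := by linarith
  obtain ⟨G, hG⟩ : ∃ G : ℝ, G = (n : ℝ) ^ (1 / 4 : ℝ) := ⟨_, rfl⟩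
  have hn1 : (1 : ℝ) ≤ n := by linarith
  have hG1 : 1 ≤ G := by
    rw [hG]; exact Real.one_le_rpow hn1 (by norm_num)
  have hG0 : 0 < G := by linarith
  have hGs : G ≤ (n : ℝ) / 100 := by
    have h1 : G ≤ (n : ℝ) ^ (1 / 2 : ℝ) := by
      rw [hG]; exact Real.rpow_le_rpow_of_exponent_le hn1 (by norm_num)
    rw [← Real.sqrt_eq_rpow] at h1
    exact h1.trans (num_sqrt n hnR)
  have hG64 : 1 + G ≤ (n : ℝ) / 64 := by linarith
  obtain ⟨u, hu⟩ : ∃ u : ℝ, u = G ^ (1 - α) := ⟨_, rfl⟩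
  obtain ⟨v, hv⟩ : ∃ v : ℝ, v = G ^ α := ⟨_, rfl⟩
  have hu1 : 1 ≤ u := by rw [hu]; exact Real.one_le_rpow hG1 (by linarith)
  have hv1 : 1 ≤ v := by rw [hv]; exact Real.one_le_rpow hG1 (by linarith)
  have huG : u ≤ G := by
    rw [hu]; nth_rewrite 2 [← Real.rpow_one G]
    exact Real.rpow_le_rpow_of_exponent_le hG1 (by linarith)
  have hvG : v ≤ G := by
    rw [hv]; nth_rewrite 2 [← Real.rpow_one G]
    exact Real.rpow_le_rpow_of_exponent_le hG1 (by linarith)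
  obtain ⟨typ, htyp⟩ : ∃ typ : Fin n → Bool, typ = btyp α n := ⟨_, rfl⟩
  have hkk : kk typ = bty α n := by rw [htyp]; exact kk_btyp α hα0 hα1' n
  have hkl := kk_add_ll_params typ
  obtain ⟨a, ha⟩ : ∃ a : ℕ, a = (YY typ).card := ⟨_, rfl⟩
  obtain ⟨b, hb⟩ : ∃ b : ℕ, b = ((YY typ)ᶜ).card := ⟨_, rfl⟩
  have ha' : (a : ℝ) = kk typ * (n : ℝ) ^ 2 := by
    rw [ha, card_YY_params]; push_cast; ring
  have hb' : (b : ℝ) = ll typ * (n : ℝ) ^ 2 := by
    rw [hb, card_YY_compl_params]; push_cast; ring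
  have hk1 := bty_le α hα0 n
  have hk2 := lt_bty α n
  rw [← hkk] at hk1 hk2
  have hkn : (kk typ : ℝ) + ll typ = n := by exact_mod_cast hkl
  have hk3 : (n : ℝ) / 3 ≤ kk typ := num_kk n α _ hnR hα1 hk2
  have hl3 : (n : ℝ) / 4 ≤ ll typ := num_ll n α _ _ hnR hα2 hk1 hkn
  have hu64 : 1 + u ≤ (n : ℝ) / 64 := le_trans (by linarith only [huG]) hG64
  have hv64 : 1 + v ≤ (n : ℝ) / 64 := le_trans (by linarith only [hvG]) hG64
  have hX1 : (16 : ℝ) * n ^ 2 ≤ a / (1 + u) :=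
    num_X n a _ u hnR hu1 (by linarith only [hk3, hnpos]) hu64 ha'
  have hX2 : (16 : ℝ) * n ^ 2 ≤ b / (1 + v) := num_X n b _ v hnR hv1 hl3 hv64 hb'
  have hn3 : 3 * (n : ℝ) ≤ 16 * (n : ℝ) ^ 2 := num_3n n hnR
  obtain ⟨p, hpa, hp1, hp2, hp3, hp4, hp5⟩ :=
    level_Y a n u (a / (1 + u)) hn0 hu1 rfl (hn3.trans hX1)
  obtain ⟨q, hqb, hq1, hq2, hq2', hq4, hq5⟩ :=
    level_Z b n v (b / (1 + v)) hn0 hv1 rfl (hn3.trans hX2)
  have hapR : ((a - p : ℕ) : ℝ) = (a : ℝ) - p := Nat.cast_sub hpa.le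
  have hbqR : ((b - q : ℕ) : ℝ) = (b : ℝ) - q := Nat.cast_sub hqb.le
  have hap : 8 * n ^ 2 ≤ a - p := by
    have : ((8 * n ^ 2 : ℕ) : ℝ) ≤ ((a - p : ℕ) : ℝ) := by
      push_cast; exact num_8 n _ _ hnR hX1 hp1
    exact_mod_cast this
  have hbq : 8 * n ^ 2 ≤ b - q := by
    have : ((8 * n ^ 2 : ℕ) : ℝ) ≤ ((b - q : ℕ) : ℝ) := by
      push_cast; exact num_8 n _ _ hnR hX2 hq2
    exact_mod_cast this
  have h8 : (0 : ℝ) < 8 * (n : ℝ) ^ 2 := by positivity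
  have hap0 : (0 : ℝ) < (a : ℝ) - p := by
    have : ((8 * n ^ 2 : ℕ) : ℝ) ≤ ((a - p : ℕ) : ℝ) := by exact_mod_cast hap
    push_cast at this; linarith
  have hbq0 : (0 : ℝ) < (b : ℝ) - q := by
    have : ((8 * n ^ 2 : ℕ) : ℝ) ≤ ((b - q : ℕ) : ℝ) := by exact_mod_cast hbq
    push_cast at this; linarith
  have h2p : 2 * (n : ℝ) ≤ p := num_2 n _ _ hnR hX1 hp3
  have h2q : 2 * (n : ℝ) ≤ q := num_2 n _ _ hnR hX2 hq1
  have hp0 : (0 : ℝ) < p := by linarith only [h2p, hnpos]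
  have hq0 : (0 : ℝ) < q := by linarith only [h2q, hnpos]
  have ha0 : (0 : ℝ) < a := by linarith
  have hb0 : (0 : ℝ) < b := by linarith
  obtain ⟨cY, hcY⟩ : ∃ cY : ℝ, cY = (p : ℝ) / (a - p) := ⟨_, rfl⟩
  obtain ⟨cZ, hcZ⟩ : ∃ cZ : ℝ, cZ = (q : ℝ) / (b - q) := ⟨_, rfl⟩
  rw [hapR] at hp1 hp2 hp4 hp5
  rw [hbqR] at hq2 hq2' hq4 hq5
  have cY1 : u ≤ cY := by rw [hcY, le_div_iff₀ hap0]; linarith
  have cY2 : cY ≤ u * (1 + 1 / n) := by rw [hcY, div_le_iff₀ hap0]; exact hp5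
  have hv0 : 0 < v := by linarith
  have hu0 : 0 < u := by linarith
  have cZ1 : v⁻¹ ≤ cZ := by
    rw [hcZ, le_div_iff₀ hbq0, inv_mul_le_iff₀ hv0]; exact hq4
  have cZ2 : cZ ≤ v⁻¹ * (1 + 1 / n) := by
    rw [hcZ, div_le_iff₀ hbq0, mul_assoc, ← div_eq_inv_mul, le_div_iff₀ hv0]
    linarith
  have cY0 : 0 < cY := lt_of_lt_of_le hu0 cY1
  have cZ0 : 0 < cZ := lt_of_lt_of_le (by positivity) cZ1
  -- the potential
  obtain ⟨frn, hfrn⟩ : ∃ frn : ℝ, frn = α * n - bty α n := ⟨_, rfl⟩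
  obtain ⟨C, hC⟩ : ∃ C : ℝ, C = G ^ (frn - 1) / 3 := ⟨_, rfl⟩
  have hC0 : 0 < C := by rw [hC]; positivity
  obtain ⟨lam, hlam⟩ : ∃ lam : Fin n → ℝ, lam = fun i =>
      if typ i then ((a : ℝ) - p) / a else ((b : ℝ) - q) / b := ⟨_, rfl⟩
  obtain ⟨Ψ, hΨ⟩ : ∃ Ψ : ℕ → ℝ, Ψ = fun i =>
      C * (cY ^ (bty α n - bty α i) * cZ ^ ((n - bty α n) - (i - bty α i))) := ⟨_, rfl⟩
  have hΨb : ∀ i ≤ n, 1 / (64 * G) ≤ Ψ i ∧ Ψ i ≤ 1 := by
    intro i hi
    have m1 := bty_mono α hα0 hα1' hi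
    have m2 : i - bty α i ≤ n - bty α n := compl_mono α hα0 hα1' hi
    have m3 := bty_le_self α hα0 hα1' i
    have m4 := bty_le_self α hα0 hα1' n
    obtain ⟨A, hA⟩ : ∃ A : ℕ, A = bty α n - bty α i := ⟨_, rfl⟩
    obtain ⟨B, hB⟩ : ∃ B : ℕ, B = (n - bty α n) - (i - bty α i) := ⟨_, rfl⟩
    have hAB : A + B = n - i := by omega
    have hAR : (A : ℝ) = bty α n - bty α i := by rw [hA, Nat.cast_sub m1]
    have hBR : (B : ℝ) = (n : ℝ) - i - A := by
      have : (A : ℝ) + B = (n : ℝ) - i := by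
        rw [← Nat.cast_sub hi]; exact_mod_cast hAB
      linarith
    have base : u ^ A * v⁻¹ ^ B = G ^ ((α * i - bty α i) - frn) := by
      rw [hu, hv, ← Real.rpow_neg hG0.le, ← Real.rpow_natCast, ← Real.rpow_natCast,
        ← Real.rpow_mul hG0.le, ← Real.rpow_mul hG0.le, ← Real.rpow_add hG0]
      congr 1
      rw [hBR, hAR, hfrn]
      ring
    have low : u ^ A * v⁻¹ ^ B ≤ cY ^ A * cZ ^ B := by
      apply mul_le_mul (pow_le_pow_left₀ hu0.le cY1 A)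
        (pow_le_pow_left₀ (by positivity) cZ1 B) (by positivity) (by positivity)
    have up : cY ^ A * cZ ^ B ≤ 3 * (u ^ A * v⁻¹ ^ B) := by
      have h1 : cY ^ A * cZ ^ B ≤ (u * (1 + 1 / n)) ^ A * (v⁻¹ * (1 + 1 / n)) ^ B :=
        mul_le_mul (pow_le_pow_left₀ cY0.le cY2 A)
          (pow_le_pow_left₀ cZ0.le cZ2 B) (by positivity) (by positivity)
      have h2 : (u * (1 + 1 / (n : ℝ))) ^ A * (v⁻¹ * (1 + 1 / n)) ^ B =
          (1 + 1 / (n : ℝ)) ^ (A + B) * (u ^ A * v⁻¹ ^ B) := by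
        rw [mul_pow, mul_pow, pow_add]; ring
      rw [h2] at h1
      refine h1.trans (mul_le_mul_of_nonneg_right ?_ (by positivity))
      exact one_add_inv_pow_le n _ hn0 (by omega)
    have f1 := bty_le α hα0 i
    have f2 := lt_bty α i
    have g1 := bty_le α hα0 n
    have g2 := lt_bty α n
    have hΨi : Ψ i = C * (cY ^ A * cZ ^ B) := by rw [hΨ, hA, hB]
    rw [hΨi]
    constructor
    · have : C * (u ^ A * v⁻¹ ^ B) ≤ C * (cY ^ A * cZ ^ B) :=
        mul_le_mul_of_nonneg_left low hC0.le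
      refine le_trans ?_ this
      rw [base, hC, div_mul_eq_mul_div, ← Real.rpow_add hG0]
      have h3 : G ^ (-1 : ℝ) ≤ G ^ (frn - 1 + ((α * i - bty α i) - frn)) :=
        Real.rpow_le_rpow_of_exponent_le hG1 (by linarith)
      rw [Real.rpow_neg_one] at h3
      have h4 : 1 / (64 * G) ≤ G⁻¹ / 3 := num_G G hG0
      linarith only [h3, h4]
    · have : C * (cY ^ A * cZ ^ B) ≤ C * (3 * (u ^ A * v⁻¹ ^ B)) :=
        mul_le_mul_of_nonneg_left up hC0.le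
      refine this.trans ?_
      rw [base, hC]
      have e : G ^ (frn - 1) / 3 * (3 * G ^ ((α * i - bty α i) - frn)) =
          G ^ (frn - 1 + ((α * i - bty α i) - frn)) := by
        rw [Real.rpow_add hG0]; ring
      rw [e]
      apply Real.rpow_le_one_of_one_le_of_nonpos hG1
      linarith
  refine ⟨typ, p, q, fun i => Ψ i, lam, ?_⟩
  simp only [← ht, ← hα, ← hG, ← hu, ← hv, ← ha, ← hb]
  refine ⟨?_, ?_, ?_, hkl, ?_, ?_, hpa, hqb, hap, hbq, ?_, ?_, ?_, ?_⟩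
  · apply choose_ratio a p u⁻¹ (by positivity) hpa.le
    rw [hapR, ← div_eq_inv_mul, le_div_iff₀ hu0]
    linarith
  · apply choose_ratio b q v hv0.le hqb.le
    rw [hbqR]
    exact hq4
  · linarith
  · have : ((2 * n : ℕ) : ℝ) ≤ (p : ℝ) := by push_cast; exact h2p
    exact_mod_cast this
  · have : ((2 * n : ℕ) : ℝ) ≤ (q : ℝ) := by push_cast; exact h2q
    exact_mod_cast this
  · intro i
    exact hΨb i (by have := i.2; omega)
  · intro i
    rw [hlam]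
  · intro i
    rw [hlam]
    simp only
    split_ifs
    · -- n (a-p)/a ≥ 2
      rw [← mul_div_assoc, le_div_iff₀ ha0]
      exact num_lam n a u _ hnR hu1 hu64 hX1 hp1
    · rw [← mul_div_assoc, le_div_iff₀ hb0]
      exact num_lam n b v _ hnR hv1 hv64 hX2 hq2
  · intro i
    have hi := i.2
    have m1 := bty_mono α hα0 hα1' (show (i : ℕ) + 1 ≤ n by omega)
    have m2 : (i : ℕ) + 1 - bty α (i + 1) ≤ n - bty α n :=
      compl_mono α hα0 hα1' (show (i : ℕ) + 1 ≤ n by omega)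
    have m3 := bty_le_self α hα0 hα1' i
    have m4 := bty_le_self α hα0 hα1' n
    have m5 := bty_le_self α hα0 hα1' (i + 1)
    have key : ∀ A A' B B' : ℕ, ∀ c : ℝ, c * (cY ^ A' * cZ ^ B') = cY ^ A * cZ ^ B →
        C * (cY ^ A * cZ ^ B) = c * (C * (cY ^ A' * cZ ^ B')) := by
      intro A A' B B' c h
      rw [← h]; ring
    simp only [Fin.val_castSucc, Fin.val_succ, hΨ]
    apply key
    rcases bty_succ α hα0 hα1' i with h | h
    · -- type Z
      have ht' : typ i = false := by rw [htyp]; simp only [btyp, h]; simp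
      have hl : (1 - lam i) / lam i = cZ := by
        rw [hlam]; simp only [ht', Bool.false_eq_true, if_false]
        rw [hcZ]
        field_simp
        ring
      rw [hl, h, show (n - bty α n) - (↑i - bty α ↑i) =
        (n - bty α n) - (↑i + 1 - bty α ↑i) + 1 by omega, pow_succ]
      ring
    · have ht' : typ i = true := by rw [htyp]; simp only [btyp, h]; simp
      have hl : (1 - lam i) / lam i = cY := by
        rw [hlam]; simp only [ht', if_true]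
        rw [hcY]
        field_simp
        ring
      rw [hl, h, show bty α n - bty α ↑i = (bty α n - (bty α ↑i + 1)) + 1 by omega, pow_succ,
        show ↑i + 1 - (bty α ↑i + 1) = ↑i - bty α ↑i by omega]
      ring

end Crest.Agent.R327
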