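import Crest.Agent.R327.MulMat

set_option autoImplicit false

namespace Crest.Agent.R327

open MvPolynomial Finset

variable {ι : Type*} [Fintype ι] [DecidableEq ι] {K : Type*} [Field K]

/-- Real arithmetic behind the bound for one bihomogeneous term. -/
theorem term_arith (G α : ℝ) (hG : 1 ≤ G) (m : ℕ) (d f : Fin m → ℕ) (hf : ∀ i, f i ≤ d i)
    (k l : ℕ) (hkl : ∑ i, d i = k + l) (hk : ∑ i, f i = k) (S : Finset (Fin m))
    (hS : ∀ i, i ∈ S ↔ α * d i < f i) :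
    (G ^ (1 - α))⁻¹ ^ (∑ i ∈ S, f i) * (G ^ α) ^ (∑ i ∈ S, (d i - f i)) =
      G ^ (-((k : ℝ) - α * (k + l)) / 2) * ∏ i, G ^ (-(|(f i : ℝ) - α * d i|) / 2) := by
  have hG0 : 0 < G := by linarith
  have h1 : (G ^ (1 - α))⁻¹ ^ (∑ i ∈ S, f i) = G ^ (-((1 - α) * (∑ i ∈ S, (f i : ℝ)))) := by
    rw [← Real.rpow_neg hG0.le, ← Real.rpow_natCast, ← Real.rpow_mul hG0.le]
    congr 1
    push_cast
    ring
  have h2 : (G ^ α) ^ (∑ i ∈ S, (d i - f i)) = G ^ (α * (∑ i ∈ S, ((d i : ℝ) - f i))) := by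
    rw [← Real.rpow_natCast, ← Real.rpow_mul hG0.le]
    congr 2
    rw [Nat.cast_sum]
    apply Finset.sum_congr rfl
    intro i _
    rw [Nat.cast_sub (hf i)]
  rw [h1, h2, ← Real.rpow_add hG0, ← Real.rpow_sum_of_pos hG0, ← Real.rpow_add hG0]
  congr 1
  have hmax : ∑ i ∈ S, ((f i : ℝ) - α * d i) = ∑ i, ((|(f i : ℝ) - α * d i| + ((f i : ℝ) - α * d i)) / 2) := by
    rw [← Finset.sum_filter_add_sum_filter_not univ (fun i => i ∈ S)]
    have e1 : ∑ i ∈ univ.filter (fun i => i ∈ S), ((|(f i : ℝ) - α * d i| + ((f i : ℝ) - α * d i)) / 2)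
        = ∑ i ∈ S, ((f i : ℝ) - α * d i) := by
      rw [Finset.filter_mem_eq_inter, Finset.univ_inter]
      apply Finset.sum_congr rfl
      intro i hi
      have := (hS i).mp hi
      rw [abs_of_pos (by linarith)]
      ring
    have e2 : ∑ i ∈ univ.filter (fun i => ¬ i ∈ S), ((|(f i : ℝ) - α * d i| + ((f i : ℝ) - α * d i)) / 2)
        = 0 := by
      apply Finset.sum_eq_zero
      intro i hi
      rw [Finset.mem_filter] at hi
      have : ¬ (α * d i < f i) := fun h => hi.2 ((hS i).mpr h)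
      rw [abs_of_nonpos (by linarith)]
      ring
    rw [e1, e2, add_zero]
  have hfk : ∑ i, (f i : ℝ) = k := by exact_mod_cast hk
  have hdk : ∑ i, (d i : ℝ) = (k : ℝ) + l := by exact_mod_cast hkl
  have hsum : ∑ i, ((f i : ℝ) - α * d i) = (k : ℝ) - α * (k + l) := by
    rw [Finset.sum_sub_distrib, ← Finset.mul_sum, hfk, hdk]
  have e3 : -((1 - α) * ∑ i ∈ S, (f i : ℝ)) + α * ∑ i ∈ S, ((d i : ℝ) - f i) =
      - ∑ i ∈ S, ((f i : ℝ) - α * d i) := by
    simp only [Finset.sum_sub_distrib, ← Finset.mul_sum]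
    ring
  rw [e3, hmax, ← Finset.sum_div, Finset.sum_add_distrib, hsum, ← Finset.sum_div,
    Finset.sum_neg_distrib]
  ring

/-- T2 (L2): rank bound for a product of homogeneous polynomials. `u = G^(1-α)`, `v = G^α`. 
Proof: expand each `Q i = ∑ κ, compY Y κ (Q i)`; for a choice `κ : Fin m → ℕ` the block of the
product is zero unless `∑ κ i = k`; otherwise let `S = {i | α * d i < κ i}`, `B = ∏ i∈S`, `A` the rest;
`rank_blk_mul_le` bounds the rank by `dimLev (p + κ(S)) (q + η(S)) ≤ F * u^{-κ(S)} v^{η(S)}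
= F * G^{-∑_{i∈S} (κ_i - α d_i)}` and `∑_{i∈S} Δ_i = (∑ |Δ_i| + ∑ Δ_i)/2`. Then sum over κ
(`Finset.prod_univ_sum`). -/
theorem rank_prod_le (Y : Finset ι) (p q : ℕ) (G α : ℝ) (hG : 1 ≤ G)
    (hY : ∀ κ : ℕ, ((Y.card.choose (p + κ) : ℕ) : ℝ) ≤ (Y.card.choose p : ℕ) * (G ^ (1 - α))⁻¹ ^ κ)
    (hZ : ∀ η : ℕ, (((Yᶜ).card.choose (q + η) : ℕ) : ℝ) ≤ ((Yᶜ).card.choose q : ℕ) * (G ^ α) ^ η)
    (m : ℕ) (Q : Fin m → MvPolynomial ι K) (d : Fin m → ℕ) (hQ : ∀ i, (Q i).IsHomogeneous (d i))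
    (k l : ℕ) (hkl : ∑ i, d i = k + l) :
    ((blk Y (∏ i, Q i) p q (p + k) (q + l)).rank : ℝ) ≤
      (dimLev Y p q : ℝ) * G ^ (-((k : ℝ) - α * (k + l)) / 2) * ∏ i, cost G α (d i) := by
  have hG0 : 0 < G := by linarith
  have hexp : ∏ i, Q i = ∑ f ∈ Fintype.piFinset (fun i => range (d i + 1)),
      ∏ i, compY Y (f i) (Q i) := by
    have : ∀ i, Q i = ∑ κ ∈ range (d i + 1), compY Y κ (Q i) := fun i => sum_compY Y (d i) (Q i) (hQ i)
    conv_lhs =>
      enter [2, i]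
      rw [this i]
    rw [Finset.prod_univ_sum]
  rw [hexp]
  have hterm : ∀ f ∈ Fintype.piFinset (fun i => range (d i + 1)),
      ((blk Y (∏ i, compY Y (f i) (Q i)) p q (p + k) (q + l)).rank : ℝ) ≤
        (dimLev Y p q : ℝ) * G ^ (-((k : ℝ) - α * (k + l)) / 2) *
          ∏ i, G ^ (-(|(f i : ℝ) - α * d i|) / 2) := by
    intro f hf
    have hfd : ∀ i, f i ≤ d i := by
      intro i
      have := Fintype.mem_piFinset.mp hf i
      rw [Finset.mem_range] at this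
      omega
    have hBi : ∀ T : Finset (Fin m), BiHom Y (∏ i ∈ T, compY Y (f i) (Q i)) (∑ i ∈ T, f i)
        (∑ i ∈ T, (d i - f i)) := fun T =>
      BiHom.prod T Y _ _ _ (fun i _ => biHom_compY Y (d i) (f i) (Q i) (hQ i))
    by_cases hk : ∑ i, f i = k
    · classical
      set S : Finset (Fin m) := univ.filter (fun i => α * d i < f i) with hSdef
      have hS : ∀ i, i ∈ S ↔ α * d i < f i := by
        intro i; rw [hSdef, Finset.mem_filter]; simp
      have hsplit : ∏ i, compY Y (f i) (Q i) =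
          (∏ i ∈ Sᶜ, compY Y (f i) (Q i)) * ∏ i ∈ S, compY Y (f i) (Q i) := by
        rw [mul_comm, Finset.prod_mul_prod_compl]
      have hr : (blk Y (∏ i, compY Y (f i) (Q i)) p q (p + k) (q + l)).rank ≤
          dimLev Y (p + ∑ i ∈ S, f i) (q + ∑ i ∈ S, (d i - f i)) := by
        rw [hsplit]
        exact rank_blk_mul_le Y _ _ _ _ (hBi S) p q (p + k) (q + l)
      have hdim : (dimLev Y (p + ∑ i ∈ S, f i) (q + ∑ i ∈ S, (d i - f i)) : ℝ) ≤
          (dimLev Y p q : ℝ) * ((G ^ (1 - α))⁻¹ ^ (∑ i ∈ S, f i) *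
            (G ^ α) ^ (∑ i ∈ S, (d i - f i))) := by
        unfold dimLev
        push_cast
        calc ((Y.card.choose (p + ∑ i ∈ S, f i) : ℕ) : ℝ) *
              (((Yᶜ).card.choose (q + ∑ i ∈ S, (d i - f i)) : ℕ) : ℝ)
            ≤ ((Y.card.choose p : ℕ) * (G ^ (1 - α))⁻¹ ^ (∑ i ∈ S, f i)) *
              (((Yᶜ).card.choose q : ℕ) * (G ^ α) ^ (∑ i ∈ S, (d i - f i))) := by
              apply mul_le_mul (hY _) (hZ _) (by positivity) (by positivity)
          _ = _ := by ring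
      calc ((blk Y (∏ i, compY Y (f i) (Q i)) p q (p + k) (q + l)).rank : ℝ)
          ≤ (dimLev Y (p + ∑ i ∈ S, f i) (q + ∑ i ∈ S, (d i - f i)) : ℝ) := by exact_mod_cast hr
        _ ≤ _ := hdim
        _ = _ := by
          rw [term_arith G α hG m d f hfd k l hkl hk S hS]
          ring
    · have hz : blk Y (∏ i, compY Y (f i) (Q i)) p q (p + k) (q + l) = 0 := by
        apply blk_eq_zero Y _ _ _ (hBi univ)
        intro h
        apply hk
        omega
      rw [hz, Matrix.rank_zero]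
      have : (0:ℝ) ≤ (dimLev Y p q : ℝ) * G ^ (-((k : ℝ) - α * (k + l)) / 2) *
          ∏ i, G ^ (-(|(f i : ℝ) - α * d i|) / 2) := by positivity
      simpa using this
  calc ((blk Y (∑ f ∈ Fintype.piFinset (fun i => range (d i + 1)),
        ∏ i, compY Y (f i) (Q i)) p q (p + k) (q + l)).rank : ℝ)
      ≤ ((∑ f ∈ Fintype.piFinset (fun i => range (d i + 1)),
          (blk Y (∏ i, compY Y (f i) (Q i)) p q (p + k) (q + l)).rank : ℕ) : ℝ) := by
        exact_mod_cast rank_blk_sum_le _ Y _ p q (p + k) (q + l)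
    _ = ∑ f ∈ Fintype.piFinset (fun i => range (d i + 1)),
          ((blk Y (∏ i, compY Y (f i) (Q i)) p q (p + k) (q + l)).rank : ℝ) := by
        push_cast; rfl
    _ ≤ ∑ f ∈ Fintype.piFinset (fun i => range (d i + 1)),
          (dimLev Y p q : ℝ) * G ^ (-((k : ℝ) - α * (k + l)) / 2) *
          ∏ i, G ^ (-(|(f i : ℝ) - α * d i|) / 2) := Finset.sum_le_sum hterm
    _ = (dimLev Y p q : ℝ) * G ^ (-((k : ℝ) - α * (k + l)) / 2) * ∏ i, cost G α (d i) := by
        rw [← Finset.mul_sum]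
        unfold cost
        rw [Finset.prod_univ_sum]

end Crest.Agent.R327
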