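import Crest.Agent.R327.Lower
import Crest.Agent.R327.Params
import Crest.Agent.R327.FinalIneq
import Crest.Agent.R327.Circuit
import Crest.Agent.R327.Grouping
import Crest.Agent.R327.ProdBound
import Crest.Agent.R327.Numbers

set_option autoImplicit false
universe u v

namespace Crest.Agent.R327

open MvPolynomial Finset Crest.ArithCircuit

theorem dimLev_pos {ι : Type*} [Fintype ι] [DecidableEq ι] (Y : Finset ι) (p q : ℕ)
    (hp : p ≤ Y.card) (hq : q ≤ (Yᶜ).card) : 0 < dimLev Y p q :=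
  Nat.mul_pos (Nat.choose_pos hp) (Nat.choose_pos hq)

theorem main :
    ∃ n₀ : ℕ, ∀ n ≥ n₀, ∀ (K : Type u) [Field K] [CharZero K]
      (L B P S R : Type v) [Fintype L] [Fintype B] [Fintype P] [Fintype S] [Fintype R]
      (C : Crest.ArithCircuit.SPSPS K (Fin n × Fin n × Fin n) L B P S R),
      C.IsHomogeneous → C.output = Crest.ArithCircuit.imm K n →
        (n : ℝ) ^ (Real.sqrt n / 400) ≤ (C.size : ℝ) := by
  obtain ⟨n1, h1⟩ := exists_params
  obtain ⟨n2, h2⟩ := final_ineq
  refine ⟨max (max n1 n2) (16 ^ 4), fun n hn K _ _ L B P S R _ _ _ _ _ C hC hout => ?_⟩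
  have hn1 : n1 ≤ n := le_trans (le_trans (le_max_left _ _) (le_max_left _ _)) hn
  have hn2 : n2 ≤ n := le_trans (le_trans (le_max_right _ _) (le_max_left _ _)) hn
  have hn3 : 16 ^ 4 ≤ n := le_trans (le_max_right _ _) hn
  have hn0 : 0 < n := lt_of_lt_of_le (by norm_num) hn3
  obtain ⟨typ, p, q, ψ, lam, hY, hZ, hk, hkl, hp, hq, hpa, hqb, ha, hb, hψ, hlam, hh, hψs⟩ :=
    h1 n hn1
  set t : ℕ := Nat.sqrt n with ht
  set α : ℝ := 1 / 2 + 1 / (4 * t) with hα
  set G : ℝ := (n : ℝ) ^ (1 / 4 : ℝ) with hGdef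
  have ht1 : 1 ≤ t := by
    rw [ht]; exact Nat.le_sqrt.mpr (by omega)
  have htn : t ≤ n := Nat.sqrt_le_self n
  have hG16 : (16 : ℝ) ≤ G := by
    have : (16 : ℝ) = ((16 ^ 4 : ℕ) : ℝ) ^ (1 / 4 : ℝ) := by
      have h16 : ((16 ^ 4 : ℕ) : ℝ) = (16 : ℝ) ^ (4 : ℝ) := by norm_num
      rw [h16, ← Real.rpow_mul (by norm_num)]
      norm_num
    rw [this, hGdef]
    apply Real.rpow_le_rpow (by positivity) (by exact_mod_cast hn3) (by norm_num)
  have hG1 : (1 : ℝ) ≤ G := by linarith
  have hG0 : (0 : ℝ) < G := by linarith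
  set F : ℝ := (dimLev (YY typ) p q : ℝ) with hF
  have hFpos : 0 < F := by
    rw [hF]; exact_mod_cast dimLev_pos _ _ _ hpa.le hqb.le
  let ρ : MvPolynomial (Fin n × Fin n × Fin n) K → ℝ :=
    fun f => ((blk (YY typ) f p q (p + kk typ) (q + ll typ)).rank : ℝ)
  set m : ℕ := (2 * n + t) / t with hm
  set b1 : ℝ := F * G ^ (1 / 2 : ℝ) * ((4 : ℝ) ^ m * G ^ (-(n : ℝ) / (8 * t))) with hb1
  set b2 : ℝ := F * G ^ (1 / 2 : ℝ) * ((2 * G ^ (-(1 : ℝ) / 8)) ^ t * 4) with hb2
  have hb1pos : 0 ≤ b1 := by positivity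
  have hb2pos : 0 ≤ b2 := by positivity
  have hGk : G ^ (-((kk typ : ℝ) - α * (kk typ + ll typ)) / 2) ≤ G ^ (1 / 2 : ℝ) := by
    apply Real.rpow_le_rpow_of_exponent_le hG1
    have hcast : ((kk typ : ℝ) + ll typ) = n := by exact_mod_cast hkl
    rw [hcast]
    linarith
  -- type (i) terms
  have hi : ∀ s : Multiset (MvPolynomial (Fin n × Fin n × Fin n) K × ℕ),
      (∀ x ∈ s, x.1.IsHomogeneous x.2 ∧ x.2 ≤ t) →
      (s.map Prod.snd).sum = n → ρ (s.map Prod.fst).prod ≤ max b1 b2 := by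
    intro s hs hsum
    obtain ⟨m', Q, d, hQ, hd, hprod, hm'⟩ := exists_grouping t n ht1 s hs hsum
    refine le_trans ?_ (le_max_left _ _)
    have hrk := rank_prod_le (YY typ) p q G α hG1 hY hZ m' Q d (fun i => (hQ i).1)
      (kk typ) (ll typ) (by rw [hd, hkl])
    rw [hprod] at hrk
    refine le_trans hrk ?_
    have hcost : ∏ i, cost G α (d i) ≤ (4 : ℝ) ^ m * G ^ (-(n : ℝ) / (8 * t)) := by
      calc ∏ i, cost G α (d i) ≤ ∏ i : Fin m', (4 * G ^ (-(d i : ℝ) / (8 * t))) := by
            apply Finset.prod_le_prod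
            · intro i _
              unfold cost; positivity
            · intro i _
              exact sum_le_of_le t ht1 (d i) (hQ i).2 G hG16
        _ = (4 : ℝ) ^ m' * G ^ (-(n : ℝ) / (8 * t)) := by
            rw [Finset.prod_mul_distrib, Finset.prod_const, Finset.card_univ, Fintype.card_fin,
              ← Real.rpow_sum_of_pos hG0]
            congr 2
            rw [← Finset.sum_div, Finset.sum_neg_distrib]
            congr 2
            exact_mod_cast hd
        _ ≤ (4 : ℝ) ^ m * G ^ (-(n : ℝ) / (8 * t)) := by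
            apply mul_le_mul_of_nonneg_right _ (by positivity)
            apply pow_le_pow_right₀ (by norm_num)
            rw [hm]
            exact (Nat.le_div_iff_mul_le (by omega)).mpr hm'
    have hnonneg : 0 ≤ ∏ i, cost G α (d i) :=
      Finset.prod_nonneg (fun i _ => by unfold cost; positivity)
    calc F * G ^ (-((kk typ : ℝ) - α * (kk typ + ll typ)) / 2) * ∏ i, cost G α (d i)
        ≤ F * G ^ (1 / 2 : ℝ) * ∏ i, cost G α (d i) := by
          gcongr
      _ ≤ F * G ^ (1 / 2 : ℝ) * ((4 : ℝ) ^ m * G ^ (-(n : ℝ) / (8 * t))) := by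
          gcongr
  -- type (ii) terms
  have hii : ∀ (ℓ : Fin t → MvPolynomial (Fin n × Fin n × Fin n) K)
      (R' : MvPolynomial (Fin n × Fin n × Fin n) K), (∀ i, (ℓ i).IsHomogeneous 1) →
      R'.IsHomogeneous (n - t) → ρ ((∏ i, ℓ i) * R') ≤ max b1 b2 := by
    intro ℓ R' hℓ hR'
    refine le_trans ?_ (le_max_right _ _)
    have hrk := rank_prod_le (YY typ) p q G α hG1 hY hZ (t + 1)
      (Fin.cons R' ℓ : Fin (t + 1) → MvPolynomial (Fin n × Fin n × Fin n) K)
      (Fin.cons (n - t) (fun _ => 1) : Fin (t + 1) → ℕ)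
      (by
        intro i
        refine Fin.cases ?_ ?_ i
        · simpa using hR'
        · intro j; simpa using hℓ j)
      (kk typ) (ll typ) (by
        rw [Fin.sum_univ_succ]
        simp
        omega)
    rw [Fin.prod_univ_succ, Fin.prod_univ_succ] at hrk
    simp only [Fin.cons_zero, Fin.cons_succ] at hrk
    rw [mul_comm R'] at hrk
    refine le_trans hrk ?_
    have hc1 : cost G α 1 ≤ 2 * G ^ (-(1 : ℝ) / 8) := sum_linear t ht1 G hG1
    have hc2 : cost G α (n - t) ≤ 4 := sum_le_four _ _ G hG16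
    have hc1' : 0 ≤ cost G α 1 := by unfold cost; positivity
    have hc2' : 0 ≤ cost G α (n - t) := by unfold cost; positivity
    have hcost : cost G α (n - t) * ∏ _i : Fin t, cost G α 1 ≤
        (2 * G ^ (-(1 : ℝ) / 8)) ^ t * 4 := by
      rw [Finset.prod_const, Finset.card_univ, Fintype.card_fin, mul_comm]
      gcongr
    calc F * G ^ (-((kk typ : ℝ) - α * (kk typ + ll typ)) / 2) *
          (cost G α (n - t) * ∏ _i : Fin t, cost G α 1)
        ≤ F * G ^ (1 / 2 : ℝ) * (cost G α (n - t) * ∏ _i : Fin t, cost G α 1) := by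
          gcongr
      _ ≤ F * G ^ (1 / 2 : ℝ) * ((2 * G ^ (-(1 : ℝ) / 8)) ^ t * 4) := by
          gcongr
  have key := circuit_subadditive C hC n (by rw [hout]; exact imm_isHomogeneous K n hn0)
    (by rw [hout]; exact imm_ne_zero K n hn0) t htn ρ
    (by
      have h := blk_smul (YY typ) (0 : K) (0 : MvPolynomial (Fin n × Fin n × Fin n) K) p q
        (p + kk typ) (q + ll typ)
      simp only [zero_smul] at h
      simp only [ρ]
      rw [h, Matrix.rank_zero]; simp)
    (by
      intro f g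
      simp only [ρ]
      exact_mod_cast rank_blk_add_le (YY typ) f g p q (p + kk typ) (q + ll typ))
    (by
      intro c f
      simp only [ρ]
      exact_mod_cast rank_blk_smul_le (YY typ) c f p q (p + kk typ) (q + ll typ))
    (max b1 b2) (le_max_of_le_left hb1pos) hi hii
  rw [hout] at key
  have low := rank_imm_lower K n hn0 typ p q hp hq hpa hqb ha hb (64 * G) (by linarith) ψ hψ lam
    hlam hh hψs
  have hsize1 : (Fintype.card R : ℝ) ≤ (C.size : ℝ) := by
    unfold SPSPS.size; push_cast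
    have : (0 : ℝ) ≤ Fintype.card L := by positivity
    have : (0 : ℝ) ≤ Fintype.card B := by positivity
    have : (0 : ℝ) ≤ Fintype.card P := by positivity
    have : (0 : ℝ) ≤ Fintype.card S := by positivity
    linarith
  have hsize2 : (1 + Fintype.card P : ℝ) ≤ (C.size : ℝ) := by
    unfold SPSPS.size; push_cast
    have : (0 : ℝ) ≤ Fintype.card L := by positivity
    have : (0 : ℝ) ≤ Fintype.card B := by positivity
    have : (0 : ℝ) ≤ Fintype.card R := by positivity
    have : (0 : ℝ) ≤ Fintype.card S := by positivity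
    linarith
  have hsize3 : (1 : ℝ) ≤ (C.size : ℝ) := by
    have : (0 : ℝ) ≤ Fintype.card P := by positivity
    linarith
  have hbmax : 0 ≤ max b1 b2 := le_max_of_le_left hb1pos
  have key2 : ρ (imm K n) ≤ (C.size : ℝ) * (C.size : ℝ) * max b1 b2 := by
    refine le_trans key ?_
    gcongr
  refine h2 n hn2 F (C.size : ℝ) hFpos hsize3 ⟨max b1 b2, ?_, ?_⟩
  · refine le_trans low ?_
    have : (0 : ℝ) ≤ 64 * (n : ℝ) ^ 2 * Real.exp (2 * (1 + 64 * G)) := by positivity
    exact mul_le_mul_of_nonneg_left key2 this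
  · rcases le_total b1 b2 with h | h
    · right
      rw [max_eq_right h]
    · left
      refine ⟨m, ?_, ?_⟩
      · rw [hm]; exact Nat.div_mul_le_self _ _
      · rw [max_eq_left h]

end Crest.Agent.R327
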