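import Crest.Agent.R327.Defs

set_option autoImplicit false

namespace Crest.Agent.R327

open MvPolynomial Finset

variable {ι : Type*} [Fintype ι] [DecidableEq ι] {K : Type*} [Field K]

theorem sq_apply (S : Finset ι) (i : ι) : sq S i = if i ∈ S then 1 else 0 := by
  classical
  simp only [sq, Finsupp.finsetSum_apply, Finsupp.single_apply]
  by_cases h : i ∈ S <;> simp [h]

theorem sq_support (S : Finset ι) : (sq S).support = S := by
  ext i
  simp [sq_apply]

theorem sq_sum_inter (S Y : Finset ι) : ∑ i ∈ Y, sq S i = (S ∩ Y).card := by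
  simp only [sq_apply, Finset.sum_ite_mem, Finset.sum_const, smul_eq_mul, mul_one]
  rw [Finset.inter_comm]

theorem sq_sum_sdiff (S Y : Finset ι) : ∑ i ∈ Yᶜ, sq S i = (S \ Y).card := by
  rw [sq_sum_inter]
  congr 1
  ext i; simp

/-- T1a. -/
theorem mulMat_mul (P Q : MvPolynomial ι K) : mulMat (P * Q) = mulMat P * mulMat Q := by
  classical
  ext E' E
  rw [Matrix.mul_apply]
  simp only [mulMat]
  by_cases hE : E ⊆ E'
  · rw [if_pos hE, coeff_mul]
    have h1 : (∑ j : Finset ι, (if j ⊆ E' then coeff (sq (E' \ j)) P else 0) *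
        (if E ⊆ j then coeff (sq (j \ E)) Q else 0)) =
        ∑ j ∈ (univ : Finset (Finset ι)).filter (fun j => E ⊆ j ∧ j ⊆ E'),
          coeff (sq (E' \ j)) P * coeff (sq (j \ E)) Q := by
      rw [Finset.sum_filter]
      refine Finset.sum_congr rfl fun j _ => ?_
      by_cases h1 : E ⊆ j <;> by_cases h2 : j ⊆ E' <;> simp [h1, h2]
    rw [h1]
    symm
    refine Finset.sum_bij' (fun j _ => (sq (E' \ j), sq (j \ E)))
      (fun m _ => E ∪ m.2.support) ?_ ?_ ?_ ?_ ?_
    · intro j hj
      simp only [mem_filter, mem_univ, true_and] at hj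
      rw [Finset.HasAntidiagonal.mem_antidiagonal]
      ext i
      simp only [Finsupp.add_apply, sq_apply, mem_sdiff]
      have h1 := @hj.1 i
      have h2 := @hj.2 i
      by_cases a : i ∈ E <;> by_cases b : i ∈ j <;> by_cases c : i ∈ E' <;>
        simp_all
    · intro m hm
      rw [Finset.HasAntidiagonal.mem_antidiagonal] at hm
      simp only [mem_filter, mem_univ, true_and]
      refine ⟨subset_union_left, union_subset hE ?_⟩
      intro i hi
      have := DFunLike.congr_fun hm i
      simp only [Finsupp.add_apply, sq_apply, mem_sdiff] at this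
      rw [Finsupp.mem_support_iff] at hi
      by_contra hc
      simp only [hc, false_and, if_false] at this
      omega
    · intro j hj
      simp only [mem_filter, mem_univ, true_and] at hj
      simp only [sq_support]
      exact union_sdiff_of_subset hj.1
    · intro m hm
      rw [Finset.HasAntidiagonal.mem_antidiagonal] at hm
      have key : ∀ i, m.1 i + m.2 i = if i ∈ E' \ E then 1 else 0 := fun i => by
        have := DFunLike.congr_fun hm i
        simpa only [Finsupp.add_apply, sq_apply] using this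
      refine Prod.ext ?_ ?_
      · ext i
        simp only [sq_apply]
        have := key i
        by_cases a : i ∈ E <;> by_cases c : i ∈ E' <;> by_cases d : m.2 i = 0 <;>
          simp [a, c, d] at this ⊢ <;> omega
      · ext i
        simp only [sq_apply]
        have := key i
        by_cases a : i ∈ E <;> by_cases c : i ∈ E' <;> by_cases d : m.2 i = 0 <;>
          simp [a, c, d] at this ⊢ <;> omega
    · intro j hj
      rfl
  · rw [if_neg hE]
    symm
    refine Finset.sum_eq_zero fun j _ => ?_
    by_cases h1 : E ⊆ j <;> by_cases h2 : j ⊆ E' <;> simp [h1, h2]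
    exact absurd (h1.trans h2) hE

/-- T1b. -/
theorem card_Lev (Y : Finset ι) (p q : ℕ) : Fintype.card (Lev Y p q) = dimLev Y p q := by
  classical
  rw [Fintype.card_subtype, dimLev, ← card_powersetCard p Y, ← card_powersetCard q Yᶜ,
    ← card_product]
  refine Finset.card_bij' (fun E _ => (E ∩ Y, E \ Y)) (fun A _ => A.1 ∪ A.2) ?_ ?_ ?_ ?_
  · intro E hE
    simp only [mem_filter, mem_univ, true_and] at hE
    simp only [mem_product, mem_powersetCard]
    refine ⟨⟨inter_subset_right, hE.1⟩, ?_, hE.2⟩
    intro i hi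
    simp only [mem_sdiff, mem_compl] at hi ⊢
    exact hi.2
  · intro A hA
    simp only [mem_product, mem_powersetCard] at hA
    obtain ⟨⟨h1, h2⟩, h3, h4⟩ := hA
    simp only [mem_filter, mem_univ, true_and]
    have e1 : (A.1 ∪ A.2) ∩ Y = A.1 := by
      ext i
      have a := @h1 i
      have b := @h3 i
      simp only [mem_compl] at b
      simp only [mem_inter, mem_union]
      tauto
    have e2 : (A.1 ∪ A.2) \ Y = A.2 := by
      ext i
      have a := @h1 i
      have b := @h3 i
      simp only [mem_compl] at b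
      simp only [mem_sdiff, mem_union]
      tauto
    rw [e1, e2]
    exact ⟨h2, h4⟩
  · intro E hE
    ext i
    simp only [mem_union, mem_inter, mem_sdiff]
    tauto
  · intro A hA
    simp only [mem_product, mem_powersetCard] at hA
    obtain ⟨⟨h1, h2⟩, h3, h4⟩ := hA
    refine Prod.ext ?_ ?_
    · ext i
      have a := @h1 i
      have b := @h3 i
      simp only [mem_compl] at b
      simp only [mem_inter, mem_union]
      tauto
    · ext i
      have a := @h1 i
      have b := @h3 i
      simp only [mem_compl] at b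
      simp only [mem_sdiff, mem_union]
      tauto

theorem blk_add (Y : Finset ι) (P Q : MvPolynomial ι K) (p q p' q' : ℕ) :
    blk Y (P + Q) p q p' q' = blk Y P p q p' q' + blk Y Q p q p' q' := by
  ext E' E
  simp only [blk, mulMat, Matrix.add_apply]
  split_ifs <;> simp

theorem blk_smul (Y : Finset ι) (c : K) (P : MvPolynomial ι K) (p q p' q' : ℕ) :
    blk Y (c • P) p q p' q' = c • blk Y P p q p' q' := by
  ext E' E
  simp only [blk, mulMat, Matrix.smul_apply]
  split_ifs <;> simp

theorem blk_zero (Y : Finset ι) (p q p' q' : ℕ) :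
    blk Y (0 : MvPolynomial ι K) p q p' q' = 0 := by
  ext E' E
  simp [blk, mulMat]

theorem matrix_rank_add_le {m n : Type*} [Fintype m] [Fintype n] (A B : Matrix m n K) :
    (A + B).rank ≤ A.rank + B.rank := by
  classical
  simp only [Matrix.rank]
  rw [Matrix.mulVecLin_add]
  calc Module.finrank K (LinearMap.range (A.mulVecLin + B.mulVecLin))
      ≤ Module.finrank K
          (LinearMap.range A.mulVecLin ⊔ LinearMap.range B.mulVecLin : Submodule K (m → K)) := by
        apply Submodule.finrank_mono
        rintro _ ⟨v, rfl⟩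
        exact Submodule.add_mem_sup ⟨v, rfl⟩ ⟨v, rfl⟩
    _ ≤ _ := Submodule.finrank_add_le_finrank_add_finrank _ _

theorem rank_blk_add_le (Y : Finset ι) (P Q : MvPolynomial ι K) (p q p' q' : ℕ) :
    (blk Y (P + Q) p q p' q').rank ≤ (blk Y P p q p' q').rank + (blk Y Q p q p' q').rank := by
  rw [blk_add]
  exact matrix_rank_add_le _ _

theorem rank_blk_sum_le {β : Type*} (s : Finset β) (Y : Finset ι) (P : β → MvPolynomial ι K)
    (p q p' q' : ℕ) :
    (blk Y (∑ b ∈ s, P b) p q p' q').rank ≤ ∑ b ∈ s, (blk Y (P b) p q p' q').rank := by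
  classical
  induction s using Finset.induction_on with
  | empty => simp [blk_zero]
  | insert a s ha ih =>
    rw [Finset.sum_insert ha, Finset.sum_insert ha]
    exact (rank_blk_add_le _ _ _ _ _ _ _).trans (by omega)

theorem rank_blk_smul_le (Y : Finset ι) (c : K) (P : MvPolynomial ι K) (p q p' q' : ℕ) :
    (blk Y (c • P) p q p' q').rank ≤ (blk Y P p q p' q').rank := by
  classical
  rw [blk_smul]
  by_cases hc : c = 0
  · subst hc
    rw [zero_smul, Matrix.rank_zero]
    exact Nat.zero_le _
  · exact (Matrix.rank_smul_of_mem_nonZeroDivisors _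
      (mem_nonZeroDivisors_of_ne_zero hc)).le

/-- the support condition for the entries of `mulMat` of a bihomogeneous polynomial -/
theorem mulMat_ne_zero {Y : Finset ι} {P : MvPolynomial ι K} {κ η : ℕ} (hP : BiHom Y P κ η)
    {E' E : Finset ι} (h : mulMat P E' E ≠ 0) :
    E ⊆ E' ∧ (E' ∩ Y).card = (E ∩ Y).card + κ ∧ (E' \ Y).card = (E \ Y).card + η := by
  classical
  simp only [mulMat] at h
  by_cases hE : E ⊆ E'
  · rw [if_pos hE] at h
    obtain ⟨h1, h2⟩ := hP _ h
    rw [sq_sum_inter] at h1
    rw [sq_sum_sdiff] at h2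
    refine ⟨hE, ?_, ?_⟩
    · have e : (E' \ E) ∩ Y = (E' ∩ Y) \ (E ∩ Y) := by
        ext i; simp only [mem_inter, mem_sdiff]; tauto
      rw [e, card_sdiff_of_subset (inter_subset_inter_right hE)] at h1
      have := card_le_card (inter_subset_inter_right hE : E ∩ Y ⊆ E' ∩ Y)
      omega
    · have e : (E' \ E) \ Y = (E' \ Y) \ (E \ Y) := by
        ext i; simp only [mem_sdiff]; tauto
      rw [e, card_sdiff_of_subset (sdiff_subset_sdiff hE (le_refl _))] at h2
      have := card_le_card (sdiff_subset_sdiff hE (le_refl _) : E \ Y ⊆ E' \ Y)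
      omega
  · rw [if_neg hE] at h
    exact absurd rfl h

/-- If `P` is bihomogeneous of bidegree `(κ,η)`, blocks to other levels vanish. -/
theorem blk_eq_zero (Y : Finset ι) (P : MvPolynomial ι K) (κ η : ℕ) (hP : BiHom Y P κ η)
    (p q p' q' : ℕ) (h : ¬ (p' = p + κ ∧ q' = q + η)) : blk Y P p q p' q' = 0 := by
  ext E' E
  simp only [blk, Matrix.zero_apply]
  by_contra hne
  obtain ⟨-, h1, h2⟩ := mulMat_ne_zero hP hne
  rw [E'.2.1, E.2.1] at h1
  rw [E'.2.2, E.2.2] at h2
  exact h ⟨h1, h2⟩

/-- T1c (L1): the rank of a product is at most the dimension of the intermediate level. -/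
theorem rank_blk_mul_le (Y : Finset ι) (A B : MvPolynomial ι K) (κ η : ℕ) (hB : BiHom Y B κ η)
    (p q p' q' : ℕ) :
    (blk Y (A * B) p q p' q').rank ≤ dimLev Y (p + κ) (q + η) := by
  classical
  have key : blk Y (A * B) p q p' q' =
      blk Y A (p + κ) (q + η) p' q' * blk Y B p q (p + κ) (q + η) := by
    ext E' E
    rw [Matrix.mul_apply]
    simp only [blk]
    rw [mulMat_mul, Matrix.mul_apply]
    symm
    rw [← Finset.sum_filter_add_sum_filter_not univ
      (fun S : Finset ι => (S ∩ Y).card = p + κ ∧ (S \ Y).card = q + η)]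
    have hz : ∑ S ∈ univ.filter
        (fun S : Finset ι => ¬ ((S ∩ Y).card = p + κ ∧ (S \ Y).card = q + η)),
        mulMat A E'.1 S * mulMat B S E.1 = 0 := by
      refine Finset.sum_eq_zero fun S hS => ?_
      simp only [mem_filter, mem_univ, true_and] at hS
      have : mulMat B S E.1 = 0 := by
        by_contra hne
        obtain ⟨-, h1, h2⟩ := mulMat_ne_zero hB hne
        rw [E.2.1] at h1
        rw [E.2.2] at h2
        exact hS ⟨h1, h2⟩
      rw [this, mul_zero]
    rw [hz, add_zero]
    exact (Finset.sum_subtype _ (by intro x; simp)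
      (fun S : Finset ι => mulMat A E'.1 S * mulMat B S E.1)).symm
  rw [key]
  refine (Matrix.rank_mul_le_right _ _).trans ?_
  rw [← card_Lev]
  exact Matrix.rank_le_card_height _

theorem weight_indicator (Y : Finset ι) (m : ι →₀ ℕ) :
    Finsupp.weight (fun i => if i ∈ Y then 1 else 0) m = ∑ i ∈ Y, m i := by
  classical
  rw [Finsupp.weight_eq_sum]
  simp [Finset.sum_ite_mem]

theorem degree_split (Y : Finset ι) (m : ι →₀ ℕ) {d : ℕ} (P : MvPolynomial ι K)
    (hP : P.IsHomogeneous d) (hm : coeff m P ≠ 0) :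
    ∑ i ∈ Y, m i + ∑ i ∈ Yᶜ, m i = d := by
  classical
  have h := hP hm
  rw [Finset.sum_add_sum_compl]
  rw [Finsupp.weight_eq_sum] at h
  simpa using h

/-- T1d. -/
theorem sum_compY (Y : Finset ι) (d : ℕ) (P : MvPolynomial ι K) (hP : P.IsHomogeneous d) :
    P = ∑ κ ∈ range (d + 1), compY Y κ P := by
  classical
  ext m
  rw [coeff_sum]
  simp only [compY, coeff_weightedHomogeneousComponent, weight_indicator]
  by_cases hm : coeff m P = 0
  · simp [hm]
  · have h := degree_split Y m P hP hm
    rw [Finset.sum_ite_eq (range (d + 1)) (∑ i ∈ Y, m i) (fun _ => coeff m P), if_pos]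
    rw [mem_range]
    omega

theorem biHom_compY (Y : Finset ι) (d κ : ℕ) (P : MvPolynomial ι K)
    (hP : P.IsHomogeneous d) : BiHom Y (compY Y κ P) κ (d - κ) := by
  classical
  intro m hm
  simp only [compY, coeff_weightedHomogeneousComponent, weight_indicator] at hm
  split_ifs at hm with h1
  · have h := degree_split Y m P hP hm
    refine ⟨h1, ?_⟩
    omega
  · exact absurd rfl hm

theorem BiHom.one (Y : Finset ι) : BiHom Y (1 : MvPolynomial ι K) 0 0 := by
  classical
  intro m hm
  rw [MvPolynomial.coeff_one] at hm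
  split_ifs at hm with h
  · subst h
    simp
  · exact absurd rfl hm

theorem BiHom.mul {Y : Finset ι} {P Q : MvPolynomial ι K} {κ η κ' η' : ℕ}
    (hP : BiHom Y P κ η) (hQ : BiHom Y Q κ' η') : BiHom Y (P * Q) (κ + κ') (η + η') := by
  classical
  intro m hm
  rw [coeff_mul] at hm
  obtain ⟨x, hx, hne⟩ := Finset.exists_ne_zero_of_sum_ne_zero hm
  rw [Finset.HasAntidiagonal.mem_antidiagonal] at hx
  obtain ⟨h1, h2⟩ := hP x.1 (left_ne_zero_of_mul hne)
  obtain ⟨h3, h4⟩ := hQ x.2 (right_ne_zero_of_mul hne)
  subst hx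
  simp only [Finsupp.add_apply, Finset.sum_add_distrib]
  omega

theorem BiHom.prod {β : Type*} (s : Finset β) (Y : Finset ι) (P : β → MvPolynomial ι K)
    (κ η : β → ℕ) (h : ∀ b ∈ s, BiHom Y (P b) (κ b) (η b)) :
    BiHom Y (∏ b ∈ s, P b) (∑ b ∈ s, κ b) (∑ b ∈ s, η b) := by
  classical
  induction s using Finset.induction_on with
  | empty => simpa using BiHom.one Y
  | insert a s ha ih =>
    rw [Finset.prod_insert ha, Finset.sum_insert ha, Finset.sum_insert ha]
    exact (h a (mem_insert_self _ _)).mul (ih fun b hb => h b (mem_insert_of_mem hb))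

end Crest.Agent.R327
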