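import Crest.Agent.R327.Defs

set_option autoImplicit false

namespace Crest.Agent.R327

open MvPolynomial Finset Crest.ArithCircuit

/-- Entries of a product of a list of matrices as a sum over vertex sequences. -/
theorem ofFn_prod_apply {R S : Type*} [CommSemiring R] [Fintype S] [DecidableEq S] (m : ℕ)
    (M : Fin m → Matrix S S R) (a b : S) :
    (List.ofFn M).prod a b =
      ∑ s ∈ (univ : Finset (Fin (m + 1) → S)).filter (fun s => s 0 = a ∧ s (Fin.last m) = b),
        ∏ i : Fin m, M i (s i.castSucc) (s i.succ) := by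
  induction m generalizing a with
  | zero =>
    simp only [List.ofFn_zero, List.prod_nil, univ_eq_empty, prod_empty, sum_const, nsmul_eq_mul,
      mul_one, Matrix.one_apply]
    by_cases h : a = b
    · subst h
      have : (univ.filter (fun s : Fin (0 + 1) → S => s 0 = a ∧ s (Fin.last 0) = a))
          = {fun _ => a} := by
        ext s
        simp only [mem_filter, mem_univ, true_and, mem_singleton]
        constructor
        · rintro ⟨h1, _⟩
          funext i
          rw [Fin.eq_zero i]; exact h1
        · rintro rfl; exact ⟨rfl, rfl⟩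
      rw [this]; simp
    · have : (univ.filter (fun s : Fin (0 + 1) → S => s 0 = a ∧ s (Fin.last 0) = b)) = ∅ := by
        apply filter_eq_empty_iff.mpr
        rintro s _ ⟨h1, h2⟩
        exact h (h1.symm.trans h2)
      rw [this]; simp [h]
  | succ m ih =>
    rw [List.ofFn_succ, List.prod_cons, Matrix.mul_apply]
    simp_rw [ih (fun i => M i.succ)]
    have hR : ∑ s ∈ (univ : Finset (Fin (m + 1 + 1) → S)).filter
        (fun s => s 0 = a ∧ s (Fin.last (m + 1)) = b),
        ∏ i : Fin (m + 1), M i (s i.castSucc) (s i.succ) =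
        ∑ y : Fin (m + 1) → S, if y (Fin.last m) = b then
          M 0 a (y 0) * ∏ i : Fin m, M i.succ (y i.castSucc) (y i.succ) else 0 := by
      rw [sum_filter]
      rw [← (Fin.consEquiv (fun _ : Fin (m + 1 + 1) => S)).sum_comp, Fintype.sum_prod_type]
      rw [sum_eq_single a]
      · apply sum_congr rfl
        intro y _
        have hlast : (Fin.last (m + 1)) = (Fin.last m).succ := rfl
        have e1 : (Fin.consEquiv (fun _ : Fin (m + 1 + 1) => S)) (a, y) =
          (Fin.cons a y : Fin (m + 1 + 1) → S) := rfl
        rw [e1, hlast, Fin.cons_zero, Fin.cons_succ]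
        simp only [true_and]
        congr 1
        rw [Fin.prod_univ_succ]
        simp only [Fin.castSucc_zero, Fin.cons_zero, Fin.cons_succ]
        congr 1
      · intro c _ hc
        apply sum_eq_zero
        intro y _
        rw [if_neg]
        rintro ⟨h1, _⟩
        apply hc
        simpa using h1
      · intro h; exact absurd (mem_univ _) h
    rw [hR]
    simp_rw [mul_sum, sum_filter]
    rw [sum_comm]
    apply sum_congr rfl
    intro y _
    by_cases hy : y (Fin.last m) = b
    · simp only [hy, and_true, if_true]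
      rw [sum_eq_single (y 0)]
      · simp
      · intro c _ hc; rw [if_neg (fun h => hc h.symm)]
      · intro h; exact absurd (mem_univ _) h
    · simp [hy]

theorem card_pathSet (n : ℕ) (z : Fin n) : (pathSet n z).card = n ^ (n - 1) := by
  obtain ⟨k, rfl⟩ : ∃ k, n = k + 1 := ⟨n - 1, by have := z.2; omega⟩
  have h : pathSet (k + 1) z = Fintype.piFinset
      (fun i : Fin (k + 1 + 1) => if i = 0 ∨ i = Fin.last (k + 1) then {z} else univ) := by
    ext s
    simp only [pathSet, mem_filter, mem_univ, true_and, Fintype.mem_piFinset]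
    constructor
    · rintro ⟨h1, h2⟩ i
      by_cases hi : i = 0 ∨ i = Fin.last (k + 1)
      · rw [if_pos hi]
        rcases hi with rfl | rfl
        · simpa using h1
        · simpa using h2
      · rw [if_neg hi]; exact mem_univ _
    · intro h
      constructor
      · have := h 0; simpa using this
      · have := h (Fin.last (k + 1)); simpa using this
  rw [h, Fintype.card_piFinset, Fin.prod_univ_succ, Fin.prod_univ_castSucc]
  have h1 : ∀ i : Fin k, ¬ ((i.castSucc.succ : Fin (k + 1 + 1)) = 0 ∨
      (i.castSucc.succ : Fin (k + 1 + 1)) = Fin.last (k + 1)) := by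
    intro i
    have hi := i.2
    rintro (h | h)
    · exact absurd h (Fin.succ_ne_zero _)
    · have := congrArg Fin.val h
      simp at this
      omega
  have h2 : ((Fin.last k).succ : Fin (k + 1 + 1)) = Fin.last (k + 1) := rfl
  simp only [h1, h2, if_false, true_or, or_true, if_true, card_singleton, one_mul, mul_one,
    card_univ, Fintype.card_fin, prod_const]
  simp

/-- the parametrisation of the edges of a path is injective -/
theorem edge_map_injective {n : ℕ} (s : Fin (n + 1) → Fin n) :
    Function.Injective (fun i : Fin n => ((i, s i.castSucc, s i.succ) : Fin n × Fin n × Fin n)) := by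
  intro i j h
  exact congrArg Prod.fst h

theorem edges_injective (n : ℕ) : Function.Injective (edges (n := n)) := by
  intro s t h
  have key : ∀ i : Fin n, s i.castSucc = t i.castSucc ∧ s i.succ = t i.succ := by
    intro i
    have : (i, s i.castSucc, s i.succ) ∈ edges t := by
      rw [← h]; exact mem_image_of_mem _ (mem_univ i)
    obtain ⟨j, _, hj⟩ := mem_image.mp this
    have h1 : j = i := congrArg Prod.fst hj
    subst h1
    have h2 := congrArg (fun v => v.2.1) hj
    have h3 := congrArg (fun v => v.2.2) hj
    exact ⟨h2.symm, h3.symm⟩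
  funext j
  obtain _ | k := n
  · exact (s 0).elim0
  · refine Fin.lastCases ?_ (fun i => (key i).1) j
    exact (key (Fin.last k)).2

theorem sq_apply_paths {ι : Type*} [Fintype ι] [DecidableEq ι] (S : Finset ι) (i : ι) :
    sq S i = if i ∈ S then 1 else 0 := by
  unfold sq
  rw [Finsupp.finsetSum_apply]
  simp only [Finsupp.single_apply]
  rw [sum_ite_eq' S i (fun _ => 1)]

theorem sq_injective {ι : Type*} [Fintype ι] [DecidableEq ι] :
    Function.Injective (sq (ι := ι)) := by
  intro S T h
  ext i
  have := DFunLike.congr_fun h i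
  rw [sq_apply_paths, sq_apply_paths] at this
  by_cases h1 : i ∈ S <;> by_cases h2 : i ∈ T <;> simp_all

theorem sq_edges {n : ℕ} (s : Fin (n + 1) → Fin n) :
    sq (edges s) = ∑ i : Fin n, Finsupp.single ((i, s i.castSucc, s i.succ) :
      Fin n × Fin n × Fin n) 1 := by
  unfold sq edges
  rw [sum_image]
  intro i _ j _ h
  exact edge_map_injective s h

theorem prod_X_eq (K : Type*) [Field K] {n : ℕ} (s : Fin (n + 1) → Fin n) :
    ∏ i : Fin n, (X (i, s i.castSucc, s i.succ) : MvPolynomial (Fin n × Fin n × Fin n) K)
      = monomial (sq (edges s)) 1 := by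
  rw [sq_edges, monomial_sum_one]
  rfl

theorem imm_eq_sum (K : Type*) [Field K] (n : ℕ) (hn : 0 < n) :
    imm K n = ∑ s ∈ pathSet n ⟨0, hn⟩, ∏ i : Fin n, (X (i, s i.castSucc, s i.succ) :
      MvPolynomial (Fin n × Fin n × Fin n) K) := by
  obtain ⟨k, rfl⟩ : ∃ k, n = k + 1 := ⟨n - 1, by omega⟩
  show (List.ofFn (varMatrix K (k + 1))).prod 0 0 = _
  rw [ofFn_prod_apply]
  rfl

theorem coeff_imm (K : Type*) [Field K] (n : ℕ) (hn : 0 < n)
    (A : Finset (Fin n × Fin n × Fin n)) :
    coeff (sq A) (imm K n) = (((pathSet n ⟨0, hn⟩).filter (fun s => A = edges s)).card : K) := by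
  rw [imm_eq_sum K n hn, coeff_sum]
  simp_rw [prod_X_eq, coeff_monomial]
  rw [card_filter, Nat.cast_sum]
  apply sum_congr rfl
  intro s _
  by_cases h : A = edges s
  · rw [if_pos h, h, if_pos rfl]; simp
  · rw [if_neg h, if_neg]
    · simp
    · intro h'; exact h (sq_injective h').symm

theorem imm_ne_zero (K : Type*) [Field K] (n : ℕ) (hn : 0 < n) : imm K n ≠ 0 := by
  intro h
  have h1 := coeff_imm K n hn (edges (fun _ => (⟨0, hn⟩ : Fin n)))
  rw [h, coeff_zero] at h1
  have h2 : (pathSet n ⟨0, hn⟩).filter
      (fun s => edges (fun _ => (⟨0, hn⟩ : Fin n)) = edges s) = {fun _ => ⟨0, hn⟩} := by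
    ext s
    simp only [mem_filter, mem_singleton]
    constructor
    · rintro ⟨_, h⟩
      exact (edges_injective n h).symm
    · rintro rfl
      exact ⟨by simp [pathSet], rfl⟩
  rw [h2] at h1
  simp at h1

theorem imm_isHomogeneous (K : Type*) [Field K] (n : ℕ) (hn : 0 < n) :
    (imm K n).IsHomogeneous n := by
  rw [imm_eq_sum K n hn]
  apply IsHomogeneous.sum
  intro s _
  have := IsHomogeneous.prod (univ : Finset (Fin n))
    (fun i => (X (i, s i.castSucc, s i.succ) : MvPolynomial (Fin n × Fin n × Fin n) K))
    (fun _ => 1) (fun i _ => isHomogeneous_X K _)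
  simpa using this

theorem blk_imm (K : Type*) [Field K] (n : ℕ) (hn : 0 < n)
    (Y : Finset (Fin n × Fin n × Fin n)) (p q p' q' : ℕ) :
    blk Y (imm K n) p q p' q' = (pathMat n hn Y p q p' q').map (Nat.cast : ℕ → K) := by
  ext E' E
  simp only [blk, mulMat, Matrix.map_apply, pathMat]
  by_cases h : E.1 ⊆ E'.1
  · rw [if_pos h, coeff_imm K n hn]
    congr 2
    ext s
    simp [h]
  · rw [if_neg h]
    simp [h]

theorem card_YY {n : ℕ} (typ : Fin n → Bool) : (YY typ).card = kk typ * n ^ 2 := by
  have : YY typ = (univ.filter (fun i => typ i = true)) ×ˢ (univ : Finset (Fin n × Fin n)) := by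
    ext v; simp [YY]
  rw [this, card_product, kk]
  simp [pow_two]

theorem card_YY_compl {n : ℕ} (typ : Fin n → Bool) : ((YY typ)ᶜ).card = ll typ * n ^ 2 := by
  have : (YY typ)ᶜ = (univ.filter (fun i => typ i = false)) ×ˢ
      (univ : Finset (Fin n × Fin n)) := by
    ext v; simp [YY]
  rw [this, card_product, ll]
  simp [pow_two]

theorem kk_add_ll {n : ℕ} (typ : Fin n → Bool) : kk typ + ll typ = n := by
  have h := card_filter_add_card_filter_not (s := (univ : Finset (Fin n)))
    (fun i => typ i = true)
  have h2 : (univ.filter (fun i => ¬ typ i = true)) = univ.filter (fun i : Fin n => typ i = false) := by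
    ext i; simp
  rw [h2] at h
  simpa [kk, ll] using h

/-- the edge set of a path has one element per layer. -/
theorem card_edges_inter {n : ℕ} (typ : Fin n → Bool) (s : Fin (n + 1) → Fin n) :
    (edges s ∩ YY typ).card = kk typ := by
  have : edges s ∩ YY typ = (univ.filter (fun i => typ i = true)).image
      (fun i : Fin n => ((i, s i.castSucc, s i.succ) : Fin n × Fin n × Fin n)) := by
    ext v
    simp only [edges, YY, mem_inter, mem_image, mem_filter, mem_univ, true_and]
    constructor
    · rintro ⟨⟨i, rfl⟩, h⟩; exact ⟨i, h, rfl⟩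
    · rintro ⟨i, h, rfl⟩; exact ⟨⟨i, rfl⟩, h⟩
  rw [this, card_image_of_injective _ (edge_map_injective s)]
  rfl

theorem card_edges_sdiff {n : ℕ} (typ : Fin n → Bool) (s : Fin (n + 1) → Fin n) :
    (edges s \ YY typ).card = ll typ := by
  have : edges s \ YY typ = (univ.filter (fun i => typ i = false)).image
      (fun i : Fin n => ((i, s i.castSucc, s i.succ) : Fin n × Fin n × Fin n)) := by
    ext v
    simp only [edges, YY, mem_sdiff, mem_image, mem_filter, mem_univ, true_and]
    constructor
    · rintro ⟨⟨i, rfl⟩, h⟩; exact ⟨i, by simpa using h, rfl⟩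
    · rintro ⟨i, h, rfl⟩; exact ⟨⟨i, rfl⟩, by simp [h]⟩
  rw [this, card_image_of_injective _ (edge_map_injective s)]
  rfl

end Crest.Agent.R327
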