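import Mathlib

/-!
Rank lower bounds through traces: for an integer matrix `A` over a field of characteristic zero,
`(∑ A i j ^ 2) ^ 2 ≤ rank A * ∑_{i,i'} (∑ j, A i j * A i' j) ^ 2`.
-/

set_option autoImplicit false

namespace Crest.Agent.R327

open Matrix

section Real

variable {m n : Type*} [Fintype m] [Fintype n]

/-- For a real symmetric matrix, `(tr B)² ≤ rank B · tr (B²)`. -/
theorem sq_trace_le_rank_mul_trace [DecidableEq n] (B : Matrix n n ℝ) (hB : B.IsHermitian) :
    B.trace ^ 2 ≤ (B.rank : ℝ) * (B * B).trace := by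
  classical
  have h1 : B.trace = ∑ i, hB.eigenvalues i := by
    simpa using hB.trace_eq_sum_eigenvalues
  have h2 : (B * B).trace = ∑ i, hB.eigenvalues i ^ 2 := by
    have hs := hB.spectral_theorem
    set U := (hB.eigenvectorUnitary : Matrix n n ℝ) with hU
    set D : Matrix n n ℝ := diagonal (RCLike.ofReal ∘ hB.eigenvalues) with hD
    have hUU : star U * U = 1 := by
      simp [hU]
    have hBB : B * B = U * (D * D) * star U := by
      conv_lhs => rw [hs]
      simp only [Unitary.conjStarAlgAut_apply]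
      calc (U * D * star U) * (U * D * star U) = U * D * (star U * U) * D * star U := by
            simp only [Matrix.mul_assoc]
        _ = U * (D * D) * star U := by rw [hUU]; simp only [Matrix.mul_assoc, Matrix.mul_one]
    rw [hBB, Matrix.trace_mul_comm, ← Matrix.mul_assoc, hUU, Matrix.one_mul, hD,
      Matrix.diagonal_mul_diagonal, Matrix.trace_diagonal]
    refine Finset.sum_congr rfl fun i _ => ?_
    simp [sq]
  have h3 : B.rank = Fintype.card {i // hB.eigenvalues i ≠ 0} := hB.rank_eq_card_non_zero_eigs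
  rw [h1, h2, h3]
  have h4 : ∑ i, hB.eigenvalues i
      = ∑ i ∈ Finset.univ.filter (fun i => hB.eigenvalues i ≠ 0), hB.eigenvalues i := by
    rw [Finset.sum_filter_ne_zero]
  have h5 : ∑ i ∈ Finset.univ.filter (fun i => hB.eigenvalues i ≠ 0), hB.eigenvalues i ^ 2
      ≤ ∑ i, hB.eigenvalues i ^ 2 :=
    Finset.sum_le_sum_of_subset_of_nonneg (Finset.filter_subset _ _) fun i _ _ => sq_nonneg _
  have h6 := sq_sum_le_card_mul_sum_sq
    (s := Finset.univ.filter (fun i => hB.eigenvalues i ≠ 0)) (f := hB.eigenvalues)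
  rw [h4]
  refine h6.trans ?_
  rw [Fintype.card_subtype]
  exact mul_le_mul_of_nonneg_left h5 (by positivity)

/-- Real version of the trace bound for the rank of a rectangular matrix. -/
theorem sq_sum_sq_le_rank_mul_real (A : Matrix m n ℝ) :
    (∑ i, ∑ j, A i j ^ 2) ^ 2
      ≤ (A.rank : ℝ) * ∑ i, ∑ i', (∑ j, A i j * A i' j) ^ 2 := by
  classical
  have hB : (A * Aᵀ).IsHermitian := by
    have := Matrix.isHermitian_mul_conjTranspose_self A
    simpa using this
  have h := sq_trace_le_rank_mul_trace (A * Aᵀ) hB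
  have ht : (A * Aᵀ).trace = ∑ i, ∑ j, A i j ^ 2 := by
    simp [Matrix.trace, Matrix.mul_apply, sq]
  have ht2 : ((A * Aᵀ) * (A * Aᵀ)).trace = ∑ i, ∑ i', (∑ j, A i j * A i' j) ^ 2 := by
    simp only [Matrix.trace, Matrix.diag_apply]
    refine Finset.sum_congr rfl fun i _ => ?_
    rw [Matrix.mul_apply]
    refine Finset.sum_congr rfl fun i' _ => ?_
    simp only [Matrix.mul_apply, Matrix.transpose_apply, sq]
    congr 1
    exact Finset.sum_congr rfl fun j _ => mul_comm _ _
  rw [ht, ht2, Matrix.rank_self_mul_transpose] at h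
  exact h

end Real

section Transfer

variable {m n : Type*} [Fintype m] [Fintype n]

/-- Square case: a field extension does not change the rank. -/
theorem rank_map_square {F K : Type*} [Field F] [Field K] [DecidableEq n] (f : F →+* K)
    (M : Matrix n n F) : (M.map f).rank = M.rank := by
  classical
  obtain ⟨V, U, e, hV, hU, h⟩ := Matrix.exists_rank_normal_form M
  have hV' : IsUnit (V.map f) := by
    have := hV.map (f.mapMatrix (m := n))
    simpa using this
  have hU' : IsUnit (U.map f) := by
    have := hU.map (f.mapMatrix (m := n))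
    simpa using this
  have hmap : V.map f * M.map f * U.map f
      = ((fromBlocks (1 : Matrix (Fin M.rank) (Fin M.rank) K) 0 0
          (0 : Matrix (Fin (Fintype.card n - M.rank)) (Fin (Fintype.card n - M.rank)) K)).submatrix e e) := by
    have := congrArg (fun X : Matrix n n F => X.map f) h
    simp only [Matrix.map_mul] at this
    rw [this]
    ext i j
    simp only [Matrix.map_apply, Matrix.submatrix_apply]
    rcases e i with a | a <;> rcases e j with b | b <;>
      simp [Matrix.fromBlocks_apply₁₁, Matrix.fromBlocks_apply₁₂, Matrix.fromBlocks_apply₂₁, Matrix.fromBlocks_apply₂₂, Matrix.one_apply]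
  have hVd : IsUnit (V.map f).det := (Matrix.isUnit_iff_isUnit_det _).1 hV'
  have hUd : IsUnit (U.map f).det := (Matrix.isUnit_iff_isUnit_det _).1 hU'
  have h1 : (V.map f * M.map f * U.map f).rank = (M.map f).rank := by
    rw [Matrix.rank_mul_eq_left_of_isUnit_det (U.map f) (V.map f * M.map f) hUd,
      Matrix.rank_mul_eq_right_of_isUnit_det (V.map f) (M.map f) hVd]
  rw [← h1, hmap]
  have h2 : (fromBlocks (1 : Matrix (Fin M.rank) (Fin M.rank) K) 0 0
      (0 : Matrix (Fin (Fintype.card n - M.rank)) (Fin (Fintype.card n - M.rank)) K))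
      = Matrix.diagonal (Sum.elim (fun _ => (1 : K)) (fun _ => 0)) := by
    rw [← Matrix.fromBlocks_diagonal, ← Matrix.diagonal_one, ← Matrix.diagonal_zero]
  rw [Matrix.rank_submatrix, h2, Matrix.rank_diagonal]
  simp only [ne_eq]
  rw [Fintype.card_subtype]
  have : (Finset.univ.filter (fun i : Fin M.rank ⊕ Fin (Fintype.card n - M.rank) =>
      ¬ (Sum.elim (fun _ => (1 : K)) (fun _ => 0) i = 0)))
      = (Finset.univ : Finset (Fin M.rank)).map Function.Embedding.inl := by
    ext i
    rcases i with i | i <;> simp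
  rw [this, Finset.card_map, Finset.card_univ, Fintype.card_fin]

/-- Padding a matrix with zero blocks does not change the rank. -/
theorem rank_fromBlocks_zero {E : Type*} [Field E] (N : Matrix m n E) :
    (fromBlocks (0 : Matrix m m E) N 0 (0 : Matrix n n E)).rank = N.rank := by
  classical
  apply le_antisymm
  · have hfac : fromBlocks (0 : Matrix m m E) N 0 (0 : Matrix n n E)
        = (fromRows (1 : Matrix m m E) (0 : Matrix n m E)) * N
          * (fromCols (0 : Matrix n m E) (1 : Matrix n n E)) := by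
      rw [Matrix.fromRows_mul, Matrix.mul_fromCols]
      ext i j
      rcases i with i | i <;> rcases j with j | j <;> simp
    rw [hfac]
    exact (Matrix.rank_mul_le_left _ _).trans (Matrix.rank_mul_le_right _ _)
  · have hsub : N = (fromBlocks (0 : Matrix m m E) N 0 (0 : Matrix n n E)).submatrix
        Sum.inl Sum.inr := by
      ext i j; simp
    conv_lhs => rw [hsub]
    exact Matrix.rank_submatrix_le _ _ _

/-- A field extension does not change the rank of a matrix. -/
theorem rank_map_field {F K : Type*} [Field F] [Field K] (f : F →+* K)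
    (M : Matrix m n F) : (M.map f).rank = M.rank := by
  classical
  rw [← rank_fromBlocks_zero (M.map f), ← rank_fromBlocks_zero M, ← rank_map_square f,
    Matrix.fromBlocks_map]
  simp

end Transfer

section Main

variable {m n : Type*} [Fintype m] [Fintype n]

/-- **Trace bound for ranks over a field of characteristic zero.**  For an integer matrix `A`,
`(∑ A i j ^ 2) ^ 2 ≤ rank_K A * ∑_{i,i'} (∑ j, A i j * A i' j) ^ 2`. -/
theorem sq_sum_sq_le_rank_mul {K : Type*} [Field K] [CharZero K] (A : Matrix m n ℤ) :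
    (∑ i, ∑ j, A i j ^ 2) ^ 2
      ≤ ((A.map (Int.cast : ℤ → K)).rank : ℤ) * ∑ i, ∑ i', (∑ j, A i j * A i' j) ^ 2 := by
  have hR := sq_sum_sq_le_rank_mul_real (A.map (Int.cast : ℤ → ℝ))
  have h1 : (A.map (Int.cast : ℤ → ℝ)).rank = (A.map (Int.cast : ℤ → K)).rank := by
    have e1 : A.map (Int.cast : ℤ → ℝ) = (A.map (Int.cast : ℤ → ℚ)).map (algebraMap ℚ ℝ) := by
      ext i j; simp
    have e2 : A.map (Int.cast : ℤ → K) = (A.map (Int.cast : ℤ → ℚ)).map (algebraMap ℚ K) := by
      ext i j; simp
    rw [e1, e2, rank_map_field, rank_map_field]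
  rw [h1] at hR
  have : (((∑ i, ∑ j, A i j ^ 2) ^ 2 : ℤ) : ℝ)
      ≤ ((((A.map (Int.cast : ℤ → K)).rank : ℤ) * ∑ i, ∑ i', (∑ j, A i j * A i' j) ^ 2 : ℤ) : ℝ) := by
    push_cast
    simpa using hR
  exact_mod_cast this

/-- **Trace bound for ranks over a field of characteristic zero**, for matrices of natural
numbers, with the column Gram matrix. -/
theorem sq_le_rank_mul {K : Type*} [Field K] [CharZero K] {m n : Type*} [Fintype m] [Fintype n]
    [DecidableEq m] [DecidableEq n] (A : Matrix m n ℕ) :
    ((∑ i, ∑ j, (A i j : ℝ) ^ 2)) ^ 2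
      ≤ ((A.map (Nat.cast : ℕ → K)).rank : ℝ)
        * ∑ j₁, ∑ j₂, (∑ i, (A i j₁ : ℝ) * A i j₂) ^ 2 := by
  have hR := sq_sum_sq_le_rank_mul_real (A.map (Nat.cast : ℕ → ℝ))ᵀ
  have h1 : (A.map (Nat.cast : ℕ → ℝ)).rank = (A.map (Nat.cast : ℕ → K)).rank := by
    have e1 : A.map (Nat.cast : ℕ → ℝ) = (A.map (Nat.cast : ℕ → ℚ)).map (algebraMap ℚ ℝ) := by
      ext i j; simp
    have e2 : A.map (Nat.cast : ℕ → K) = (A.map (Nat.cast : ℕ → ℚ)).map (algebraMap ℚ K) := by
      ext i j; simp
    rw [e1, e2, rank_map_field, rank_map_field]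
  rw [Matrix.rank_transpose, h1] at hR
  have hc : ∑ i, ∑ j, (A i j : ℝ) ^ 2 = ∑ j, ∑ i, (A i j : ℝ) ^ 2 := Finset.sum_comm
  rw [hc]
  simpa using hR

end Main

end Crest.Agent.R327
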