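import Mathlib

set_option autoImplicit false

namespace Crest.Agent.R327.Upper

section mprod
variable {R : Type*} [CommSemiring R] {n : ℕ}

/-- ordered product `B 0 * B 1 * ... * B (m-1)` -/
def mprod : (B : ℕ → Matrix (Fin n) (Fin n) R) → ℕ → Matrix (Fin n) (Fin n) R
  | _, 0 => 1
  | B, m + 1 => B 0 * mprod (fun k => B (k + 1)) m

theorem mprod_zero (B : ℕ → Matrix (Fin n) (Fin n) R) : mprod B 0 = 1 := rfl

theorem mprod_succ (B : ℕ → Matrix (Fin n) (Fin n) R) (m : ℕ) :
    mprod B (m + 1) = B 0 * mprod (fun k => B (k + 1)) m := rfl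

theorem mprod_add (B : ℕ → Matrix (Fin n) (Fin n) R) (m m' : ℕ) :
    mprod B (m + m') = mprod B m * mprod (fun k => B (m + k)) m' := by
  induction m generalizing B with
  | zero => simp [mprod_zero]
  | succ m ih =>
    rw [show m + 1 + m' = (m + m') + 1 by ring, mprod_succ, mprod_succ, ih, Matrix.mul_assoc]
    congr 3
    funext k
    congr 1
    ring

theorem mprod_block (B : ℕ → Matrix (Fin n) (Fin n) R) (r t : ℕ) :
    mprod B (r * t) = mprod (fun β => mprod (fun a => B (β * t + a)) t) r := by
  induction r generalizing B with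
  | zero => simp [mprod_zero]
  | succ r ih =>
    rw [show (r + 1) * t = t + r * t by ring, mprod_add, mprod_succ, ih]
    simp only [zero_mul, zero_add]
    congr 2
    funext β
    congr 1
    funext a
    congr 1
    ring

theorem mprod_one_of (B : ℕ → Matrix (Fin n) (Fin n) R) (m : ℕ) (h : ∀ k, k < m → B k = 1) :
    mprod B m = 1 := by
  induction m generalizing B with
  | zero => rfl
  | succ m ih =>
    rw [mprod_succ, h 0 (by omega), ih _ (fun k hk => h (k + 1) (by omega)), one_mul]

theorem mprod_ofFn (m : ℕ) (f : Fin m → Matrix (Fin n) (Fin n) R)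
    (B : ℕ → Matrix (Fin n) (Fin n) R) (h : ∀ k : Fin m, B k = f k) :
    mprod B m = (List.ofFn f).prod := by
  induction m generalizing B with
  | zero => simp [mprod_zero]
  | succ m ih =>
    rw [mprod_succ, List.ofFn_succ, List.prod_cons, ← ih (fun i => f i.succ) (fun k => B (k + 1))]
    · rw [show B 0 = f 0 from h 0]
    · intro k
      have := h k.succ
      simpa using this

theorem sum_cons {M : Type*} [AddCommMonoid M] {m : ℕ} (F : (Fin (m + 1) → Fin n) → M) :
    ∑ v : Fin (m + 1) → Fin n, F v
      = ∑ x : Fin n, ∑ v : Fin m → Fin n, F (Fin.cons x v) := by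
  rw [← (Fin.consEquiv (fun _ : Fin (m + 1) => Fin n)).sum_comp, Fintype.sum_prod_type]
  rfl

/-- path expansion with both endpoints in the tuple -/
theorem mprod_path1 (B : ℕ → Matrix (Fin n) (Fin n) R) (m : ℕ) (i j : Fin n) :
    mprod B m i j = ∑ v : Fin (m + 1) → Fin n,
      if v 0 = i ∧ v (Fin.last m) = j then ∏ a : Fin m, B a (v a.castSucc) (v a.succ) else 0 := by
  induction m generalizing B i with
  | zero =>
    rw [mprod_zero, sum_cons]
    simp only [Matrix.one_apply]
    by_cases hij : i = j
    · subst hij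
      simp
    · rw [if_neg hij]
      symm
      refine Finset.sum_eq_zero (fun x _ => Finset.sum_eq_zero (fun v _ => ?_))
      rw [if_neg]
      rintro ⟨h1, h2⟩
      exact hij (h1.symm.trans h2)
  | succ m ih =>
    have h1 : mprod B (m + 1) i j = ∑ l, B 0 i l * mprod (fun k => B (k + 1)) m l j := by
      rw [mprod_succ, Matrix.mul_apply]
    have h2 : ∑ l, B 0 i l * mprod (fun k => B (k + 1)) m l j
        = ∑ v : Fin (m + 1) → Fin n, B 0 i (v 0) *
          (if v (Fin.last m) = j then ∏ a : Fin m, B (a + 1) (v a.castSucc) (v a.succ) else 0) := by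
      simp only [ih, Finset.mul_sum]
      rw [Finset.sum_comm]
      refine Finset.sum_congr rfl (fun v _ => ?_)
      rw [Finset.sum_eq_single (v 0)]
      · simp only [true_and]
      · intro l _ hl
        rw [if_neg (fun h => hl h.1.symm), mul_zero]
      · intro h; exact absurd (Finset.mem_univ _) h
    rw [h1, h2, sum_cons (m := m + 1), Finset.sum_comm]
    refine Finset.sum_congr rfl (fun v _ => ?_)
    symm
    rw [Finset.sum_eq_single i]
    · have hl : (Fin.cons i v : Fin (m + 1 + 1) → Fin n) (Fin.last (m + 1)) = v (Fin.last m) := by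
        rw [← Fin.succ_last, Fin.cons_succ]
      rw [hl, Fin.prod_univ_succ]
      by_cases hv : v (Fin.last m) = j
      · rw [if_pos ⟨rfl, hv⟩, if_pos hv]
        congr 1
      · rw [if_neg (fun h => hv h.2), if_neg hv, mul_zero]
    · intro x _ hx
      rw [if_neg]
      rintro ⟨h1, _⟩
      exact hx (by simpa using h1)
    · intro h; exact absurd (Finset.mem_univ _) h

/-- vertex tuple with endpoints `i`, `j` and interior `w` -/
def V {m : ℕ} (i j : Fin n) (w : Fin m → Fin n) : Fin (m + 2) → Fin n :=
  Fin.cons i (Fin.snoc (α := fun _ => Fin n) w j)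

theorem V_zero {m : ℕ} (i j : Fin n) (w : Fin m → Fin n) : V i j w 0 = i := rfl

theorem V_cons {m : ℕ} (i j l : Fin n) (w : Fin m → Fin n) :
    V i j (Fin.cons l w : Fin (m + 1) → Fin n) = Fin.cons i (V l j w) := by
  unfold V
  have h := Fin.cons_snoc_eq_snoc_cons l w j
  rw [← h]

/-- path expansion, interior vertices only -/
theorem mprod_path2 (B : ℕ → Matrix (Fin n) (Fin n) R) (m : ℕ) (i j : Fin n) :
    mprod B (m + 1) i j = ∑ w : Fin m → Fin n,
      ∏ a : Fin (m + 1), B a (V i j w a.castSucc) (V i j w a.succ) := by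
  induction m generalizing B i with
  | zero =>
    rw [mprod_succ, mprod_zero, Matrix.mul_one]
    simp [V]
    rfl
  | succ m ih =>
    have h1 : mprod B (m + 1 + 1) i j = ∑ l, B 0 i l * mprod (fun k => B (k + 1)) (m + 1) l j := by
      rw [mprod_succ, Matrix.mul_apply]
    rw [h1, sum_cons]
    refine Finset.sum_congr rfl (fun l _ => ?_)
    rw [ih, Finset.mul_sum]
    refine Finset.sum_congr rfl (fun w _ => ?_)
    rw [Fin.prod_univ_succ (n := m + 1), V_cons]
    congr 1

end mprod

end Crest.Agent.R327.Upper
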