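import Mathlib
import Crest.Prelude.Def_SPSPS
import Crest.Agent.R327.UpperPath

set_option autoImplicit false
open MvPolynomial Crest.ArithCircuit

namespace Crest.Agent.R327.Upper

set_option linter.unusedSectionVars false
set_option linter.unusedSimpArgs false

section reindex
variable {K ι L B P S R L' B' P' S' R' : Type*} [CommSemiring K]

/-- transport a circuit along bijections of its index types -/
def reindex (C : SPSPS K ι L B P S R) (eL : L ≃ L') (eB : B ≃ B') (eP : P ≃ P') (eS : S ≃ S')
    (eR : R ≃ R') : SPSPS K ι L' B' P' S' R' where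
  leaf := fun l => C.leaf (eL.symm l)
  inB := fun b => (C.inB (eB.symm b)).map eL.toEmbedding
  coefB := fun b l => C.coefB (eB.symm b) (eL.symm l)
  inP := fun p => (C.inP (eP.symm p)).map eB
  inS := fun s => (C.inS (eS.symm s)).map eP.toEmbedding
  coefS := fun s p => C.coefS (eS.symm s) (eP.symm p)
  inR := fun r => (C.inR (eR.symm r)).map eS
  inOut := C.inOut.map eR.toEmbedding
  coefOut := fun r => C.coefOut (eR.symm r)

variable (C : SPSPS K ι L B P S R) (eL : L ≃ L') (eB : B ≃ B') (eP : P ≃ P') (eS : S ≃ S')
    (eR : R ≃ R')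

theorem reindex_valB (b : B') : (reindex C eL eB eP eS eR).valB b = C.valB (eB.symm b) := by
  simp [SPSPS.valB, reindex, SPSPS.leafVal]

theorem reindex_valP (p : P') : (reindex C eL eB eP eS eR).valP p = C.valP (eP.symm p) := by
  simp only [SPSPS.valP, reindex_valB]
  simp [reindex, Function.comp_def]

theorem reindex_valS (s : S') : (reindex C eL eB eP eS eR).valS s = C.valS (eS.symm s) := by
  simp only [SPSPS.valS, reindex_valP]
  simp [reindex]

theorem reindex_valR (r : R') : (reindex C eL eB eP eS eR).valR r = C.valR (eR.symm r) := by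
  simp only [SPSPS.valR, reindex_valS]
  simp [reindex, Function.comp_def]

theorem reindex_output : (reindex C eL eB eP eS eR).output = C.output := by
  simp only [SPSPS.output, reindex_valR]
  simp [reindex]

theorem reindex_leafDeg (l : L') : (reindex C eL eB eP eS eR).leafDeg l = C.leafDeg (eL.symm l) :=
  rfl

theorem reindex_degB (b : B') : (reindex C eL eB eP eS eR).degB b = C.degB (eB.symm b) := by
  have : (reindex C eL eB eP eS eR).leafDeg ∘ eL = C.leafDeg := by
    funext l; simp [reindex_leafDeg]
  simp only [SPSPS.degB]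
  simp only [reindex, Finset.sup_map]
  exact congrArg _ this

theorem reindex_degP (p : P') : (reindex C eL eB eP eS eR).degP p = C.degP (eP.symm p) := by
  simp only [SPSPS.degP]
  have : (reindex C eL eB eP eS eR).degB = C.degB ∘ eB.symm := by
    funext b; simp [reindex_degB]
  rw [this]
  simp [reindex, Function.comp_def]

theorem reindex_degS (s : S') : (reindex C eL eB eP eS eR).degS s = C.degS (eS.symm s) := by
  have : (reindex C eL eB eP eS eR).degP ∘ eP = C.degP := by
    funext l; simp [reindex_degP]
  simp only [SPSPS.degS]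
  simp only [reindex, Finset.sup_map]
  exact congrArg _ this

theorem reindex_degR (r : R') : (reindex C eL eB eP eS eR).degR r = C.degR (eR.symm r) := by
  simp only [SPSPS.degR]
  have : (reindex C eL eB eP eS eR).degS = C.degS ∘ eS.symm := by
    funext b; simp [reindex_degS]
  rw [this]
  simp [reindex, Function.comp_def]

theorem reindex_degOut : (reindex C eL eB eP eS eR).degOut = C.degOut := by
  have : (reindex C eL eB eP eS eR).degR ∘ eR = C.degR := by
    funext l; simp [reindex_degR]
  simp only [SPSPS.degOut]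
  simp only [reindex, Finset.sup_map]
  exact congrArg _ this

theorem reindex_homogeneous (h : C.IsHomogeneous) :
    (reindex C eL eB eP eS eR).IsHomogeneous := by
  obtain ⟨h1, h2, h3⟩ := h
  refine ⟨?_, ?_, ?_⟩
  · intro b l hl
    rw [reindex_leafDeg, reindex_degB]
    refine h1 _ _ ?_
    simpa [reindex] using hl
  · intro s p hp
    rw [reindex_degP, reindex_degS]
    refine h2 _ _ ?_
    simpa [reindex] using hp
  · intro r hr
    rw [reindex_degR, reindex_degOut]
    refine h3 _ ?_
    simpa [reindex] using hr

end reindex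

section circ
variable (K : Type*) [Field K] (n t r' : ℕ)

/-- the block circuit -/
noncomputable def circ :
    SPSPS K (Fin (n+1) × Fin (n+1) × Fin (n+1)) (Fin (n+1) × Fin (n+1) × Fin (n+1))
      (Fin (n+1) × Fin (n+1) × Fin (n+1)) (Fin (r'+1) × (Fin (t + 1) → Fin (n+1)))
      (Fin (r'+1) × Fin (n+1) × Fin (n+1)) (Fin r' → Fin (n+1)) where
  leaf := fun l => Sum.inl l
  inB := fun b => {b}
  coefB := fun _ _ => 1
  inP := fun p => (Finset.univ.filter (fun a : Fin t => p.1.val * t + a.val < n + 1)).val.map
    (fun a => (Fin.ofNat (n+1) (p.1.val * t + a.val), p.2 a.castSucc, p.2 a.succ))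
  inS := fun s => Finset.univ.filter (fun p => p.1 = s.1 ∧ (p.2 0 = s.2.1 ∧ p.2 (Fin.last t) = s.2.2) ∧
    ∀ a : Fin t, ¬ (s.1.val * t + a.val < n + 1) → p.2 a.castSucc = p.2 a.succ)
  coefS := fun _ _ => 1
  inR := fun w => (Finset.univ : Finset (Fin (r'+1))).val.map
    (fun β => (β, V 0 0 w β.castSucc, V 0 0 w β.succ))
  inOut := Finset.univ
  coefOut := fun _ => 1

/-- padded sequence of variable matrices -/
noncomputable def A (k : ℕ) :
    Matrix (Fin (n+1)) (Fin (n+1)) (MvPolynomial (Fin (n+1) × Fin (n+1) × Fin (n+1)) K) :=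
  if k < n + 1 then varMatrix K (n+1) (Fin.ofNat (n+1) k) else 1

theorem circ_valB (b : Fin (n+1) × Fin (n+1) × Fin (n+1)) : (circ K n t r').valB b = X b := by
  simp [SPSPS.valB, circ, SPSPS.leafVal]

theorem circ_valP (p : Fin (r'+1) × (Fin (t + 1) → Fin (n+1))) :
    (circ K n t r').valP p = ∏ a : Fin t, if p.1.val * t + a.val < n + 1 then
      X (Fin.ofNat (n+1) (p.1.val * t + a.val), p.2 a.castSucc, p.2 a.succ) else 1 := by
  rw [← Finset.prod_filter]
  simp only [SPSPS.valP]
  have : (circ K n t r').valB = X := by funext b; exact circ_valB K n t r' b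
  rw [this]
  simp only [circ, Multiset.map_map]
  rfl

theorem circ_valS (β : Fin (r'+1)) (i j : Fin (n+1)) :
    (circ K n t r').valS (β, i, j) = mprod (fun a => A K n (β.val * t + a)) t i j := by
  rw [mprod_path1]
  simp only [SPSPS.valS, circ_valP]
  simp only [circ, one_smul]
  rw [Finset.sum_filter, Fintype.sum_prod_type, Finset.sum_eq_single β]
  · refine Finset.sum_congr rfl (fun v _ => ?_)
    by_cases hv : v 0 = i ∧ v (Fin.last t) = j
    · rw [if_pos hv]
      by_cases hw : ∀ a : Fin t, ¬ (β.val * t + a.val < n + 1) → v a.castSucc = v a.succ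
      · rw [if_pos ⟨rfl, hv, hw⟩]
        refine Finset.prod_congr rfl (fun a _ => ?_)
        by_cases ha : β.val * t + a.val < n + 1
        · simp only [A, if_pos ha, varMatrix, Matrix.of_apply]
        · simp only [A, if_neg ha, Matrix.one_apply, if_pos (hw a ha)]
      · rw [if_neg (fun h => hw h.2.2)]
        push Not at hw
        obtain ⟨a, ha, hne⟩ := hw
        symm
        refine Finset.prod_eq_zero (Finset.mem_univ a) ?_
        simp only [A, if_neg (not_lt.mpr ha), Matrix.one_apply, if_neg hne]
    · rw [if_neg hv, if_neg (fun h => hv h.2.1)]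
  · intro β' _ hβ
    refine Finset.sum_eq_zero (fun v _ => ?_)
    rw [if_neg (fun h => hβ h.1)]
  · intro h; exact absurd (Finset.mem_univ _) h

theorem circ_valR (w : Fin r' → Fin (n+1)) :
    (circ K n t r').valR w = ∏ β : Fin (r'+1),
      mprod (fun a => A K n (β.val * t + a)) t (V 0 0 w β.castSucc) (V 0 0 w β.succ) := by
  simp only [SPSPS.valR]
  simp only [← circ_valS K n t r']
  generalize hf : (circ K n t r').valS = f
  simp only [circ, Multiset.map_map]
  rfl

theorem circ_output :
    (circ K n t r').output = mprod (fun β => mprod (fun a => A K n (β * t + a)) t) (r'+1) 0 0 := by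
  rw [mprod_path2]
  simp only [SPSPS.output, circ_valR]
  simp only [circ, one_smul]

theorem circ_output_imm (h : n + 1 ≤ (r' + 1) * t) : (circ K n t r').output = imm K (n+1) := by
  rw [circ_output, ← mprod_block (A K n) (r'+1) t]
  obtain ⟨e, he⟩ := Nat.exists_eq_add_of_le h
  rw [he, mprod_add, mprod_one_of (fun k => A K n (n + 1 + k)) e, mul_one]
  · simp only [imm]
    rw [mprod_ofFn (n+1) (varMatrix K (n+1)) (A K n)]
    intro k
    have hk := k.isLt
    simp only [A, if_pos hk]
    congr 1
    exact Fin.ext (by simp [Fin.ofNat, Nat.mod_eq_of_lt hk])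
  · intro k _
    simp only [A]
    rw [if_neg (by omega)]

/-- length of block `β` -/
def len (β : ℕ) : ℕ := (Finset.univ.filter (fun a : Fin t => β * t + a.val < n + 1)).card

theorem circ_degB (b : Fin (n+1) × Fin (n+1) × Fin (n+1)) : (circ K n t r').degB b = 1 := by
  simp [SPSPS.degB, circ, SPSPS.leafDeg]

theorem circ_degP (p : Fin (r'+1) × (Fin (t + 1) → Fin (n+1))) :
    (circ K n t r').degP p = len n t p.1 := by
  simp only [SPSPS.degP]
  have : (circ K n t r').degB = fun _ => 1 := by funext b; exact circ_degB K n t r' b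
  rw [this]
  simp [circ, len]
  rfl

theorem circ_degS (hlt : r' * t < n + 1) (ht : 0 < t) (s : Fin (r'+1) × Fin (n+1) × Fin (n+1)) :
    (circ K n t r').degS s = len n t s.1 := by
  obtain ⟨β, i, j⟩ := s
  simp only [SPSPS.degS]
  have hmem : ((β, (Fin.cons i (fun _ => j) : Fin (t+1) → Fin (n+1))) :
      Fin (r'+1) × (Fin (t + 1) → Fin (n+1))) ∈ (circ K n t r').inS (β, i, j) := by
    simp only [circ, Finset.mem_filter, Finset.mem_univ, true_and]
    obtain ⟨t', rfl⟩ : ∃ t', t = t' + 1 := ⟨t - 1, by omega⟩
    refine ⟨⟨rfl, ?_⟩, ?_⟩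
    · rw [← Fin.succ_last, Fin.cons_succ]
    · intro a ha
      refine Fin.cases ?_ (fun a' => ?_) a ha
      · intro h0
        exfalso
        apply h0
        have hb : β.val ≤ r' := Nat.lt_succ_iff.mp β.isLt
        have : β.val * (t'+1) ≤ r' * (t'+1) := Nat.mul_le_mul_right _ hb
        simp only [Fin.val_zero, add_zero]
        omega
      · intro _
        rw [← Fin.succ_castSucc, Fin.cons_succ, Fin.cons_succ]
  apply le_antisymm
  · refine Finset.sup_le (fun p hp => ?_)
    rw [circ_degP]
    have : p.1 = β := by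
      simp only [circ, Finset.mem_filter, Finset.mem_univ, true_and] at hp
      exact hp.1
    rw [this]
  · have h := Finset.le_sup (f := (circ K n t r').degP) hmem
    rw [circ_degP] at h
    exact h

theorem circ_degR (hlt : r' * t < n + 1) (ht : 0 < t) (w : Fin r' → Fin (n+1)) :
    (circ K n t r').degR w = ∑ β : Fin (r'+1), len n t β := by
  simp only [SPSPS.degR]
  have : (circ K n t r').degS = fun s => len n t s.1 := by
    funext s; exact circ_degS K n t r' hlt ht s
  rw [this]
  simp only [circ, Multiset.map_map]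
  rfl

theorem circ_homogeneous (hlt : r' * t < n + 1) (ht : 0 < t) : (circ K n t r').IsHomogeneous := by
  refine ⟨?_, ?_, ?_⟩
  · intro b l _
    rw [circ_degB]
    rfl
  · intro s p hp
    rw [circ_degP, circ_degS K n t r' hlt ht]
    have : p.1 = s.1 := by
      simp only [circ, Finset.mem_filter, Finset.mem_univ, true_and] at hp
      exact hp.1
    rw [this]
  · intro w hw
    apply le_antisymm
    · exact Finset.le_sup (f := (circ K n t r').degR) hw
    · refine Finset.sup_le (fun w' _ => ?_)
      rw [circ_degR K n t r' hlt ht, circ_degR K n t r' hlt ht]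

end circ

end Crest.Agent.R327.Upper
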